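import Vale.Agent.P026Z.QLS.Defs

/-!
P026, block QLS: divisor sums and the decomposition `x = v u²`.
-/

namespace Vale.Agent.P026Z.QLS

open Vale.Agent.P006 Vale.Agent.P006.V1 Vale.Agent.P006.HB Vale.Agent.P006.PS
open Finset

/-! ### divisor sums -/

theorem mob_mul' {a b : O} (ha : a ≠ 0) (hb : b ≠ 0) : mob (a * b) = mob a * mob b := by
  have h1 := UniqueFactorizationMonoid.factors_mul ha hb
  have h2 := Multiset.card_eq_card_of_rel h1
  rw [mob, h2, Multiset.card_add, pow_add, mob, mob]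

theorem conj_mob (d : O) : (starRingEnd ℂ) (mob d) = mob d := by
  simp [mob]

theorem sum_D_coprime : ∀ a : O, Prim a → Squarefree a → ∀ b : O, Prim b → IsCoprime a b →
    ∀ Φ : O → ℂ, ∑ d ∈ D (a * b), Φ d = ∑ d₁ ∈ D a, ∑ d₂ ∈ D b, Φ (d₁ * d₂) := by
  refine sf_induction ?_ ?_
  · intro b _ _ Φ
    rw [one_mul, D_one, sum_singleton]
    simp only [one_mul]
  · intro p k hp hpp hk hsk hc ih b hb hab Φ
    have hpb : IsCoprime p b := hab.of_mul_left_left
    have hkb : IsCoprime k b := hab.of_mul_left_right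
    rw [mul_assoc, sum_D_mul hp hpp (hk.mul hb) (hc.mul_right hpb), ih b hb hkb,
      ih b hb hkb (fun d => Φ (p * d)), sum_D_mul hp hpp hk hc]
    simp only [mul_assoc]

open Classical in
/-- splitting the divisors of `δ` according to `v` -/
theorem sum_D_split (v : O) : ∀ δ : O, Prim δ → Squarefree δ → ∀ Φ : O → ℂ,
    ∑ d ∈ D δ, Φ d = ∑ d ∈ D δ, ∑ g ∈ D δ,
      if d ∣ v ∧ IsCoprime g v then Φ (d * g) else 0 := by
  refine sf_induction ?_ ?_
  · intro Φ
    rw [D_one, sum_singleton, sum_singleton, sum_singleton, if_pos ⟨one_dvd _, isCoprime_one_left⟩,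
      one_mul]
  · intro p k hp hpp hk hsk hc ih Φ
    rw [sum_D_mul hp hpp hk hc, ih Φ, ih (fun d => Φ (p * d)), sum_D_mul hp hpp hk hc]
    simp only [sum_D_mul hp hpp hk hc]
    rw [← sum_add_distrib, ← sum_add_distrib]
    refine sum_congr rfl fun d hd => ?_
    rw [← sum_add_distrib, ← sum_add_distrib, ← sum_add_distrib, ← sum_add_distrib]
    refine sum_congr rfl fun g _ => ?_
    rw [mem_D hk.ne_zero] at hd
    have hcd : IsCoprime p d := hc.of_isCoprime_of_dvd_right hd.2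
    have h4 : p * d ∣ v ↔ p ∣ v ∧ d ∣ v :=
      ⟨fun h => ⟨(Dvd.intro _ rfl).trans h, (Dvd.intro_left _ rfl).trans h⟩,
        fun h => hcd.mul_dvd h.1 h.2⟩
    have e1 : d * (p * g) = p * (d * g) := by ring
    have e2 : p * d * g = p * (d * g) := by ring
    simp only [h4, IsCoprime.mul_left_iff, e1, e2]
    by_cases ha : p ∣ v
    · have : ¬ IsCoprime p v := fun h => hpp.not_isUnit (h.isUnit_of_dvd' dvd_rfl ha)
      simp [ha, this]
    · have : IsCoprime p v := (hpp.irreducible.coprime_iff_not_dvd).2 ha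
      simp [ha, this]

theorem cop_mul_right (m x y : O) : cop m (x * y) = cop m x * cop m y := by
  unfold cop
  rw [IsCoprime.mul_left_iff]
  by_cases h1 : IsCoprime x m <;> by_cases h2 : IsCoprime y m <;> simp [h1, h2]

theorem cop_mul_left (a b x : O) : cop (a * b) x = cop a x * cop b x := by
  unfold cop
  rw [IsCoprime.mul_right_iff]
  by_cases h1 : IsCoprime x a <;> by_cases h2 : IsCoprime x b <;> simp [h1, h2]

theorem cop_sq (m x : O) : cop m x * cop m x = cop m x := by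
  unfold cop
  split_ifs <;> simp

theorem norm_cop_le (m x : O) : ‖cop m x‖ ≤ 1 := by
  unfold cop
  split_ifs <;> simp

/-! ### `Od` -/

theorem Od.prim {n : O} (h : Od n) : Prim n := h.1

theorem Od.sqf {n : O} (h : Od n) : Squarefree n := h.2.1

theorem Od.ne_zero {n : O} (h : Od n) : n ≠ 0 := h.1.ne_zero

theorem Od.of_dvd {n d : O} (h : Od n) (hd : Prim d) (hdn : d ∣ n) : Od d :=
  ⟨hd, h.sqf.squarefree_of_dvd hdn, fun h2 => h.2.2 (h2.trans hdn)⟩

theorem prime_two : Prime (2 : O) := by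
  have h2 : (2 : O) ≠ 0 := by decide
  refine Irreducible.prime ⟨?_, ?_⟩
  · rw [isUnit_iff_N]; decide
  · intro a b hab
    have h1 : N a * N b = 4 := by
      rw [← N_mul, ← hab]; decide
    have h3 : ∀ z : O, N z ≠ 2 := by
      intro z hz
      have h4 := N_cast_int' z
      rw [hz] at h4
      have h5 : (z.re * z.re - z.re * z.im + z.im * z.im) % 3 = 2 := by rw [← h4]; rfl
      have h6 : z.re % 3 = 0 ∨ z.re % 3 = 1 ∨ z.re % 3 = 2 := by omega
      have h7 : z.im % 3 = 0 ∨ z.im % 3 = 1 ∨ z.im % 3 = 2 := by omega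
      rcases h6 with h6 | h6 | h6 <;> rcases h7 with h7 | h7 | h7 <;>
        simp [Int.add_emod, Int.sub_emod, Int.mul_emod, h6, h7] at h5
    rw [isUnit_iff_N, isUnit_iff_N]
    have h8 : N a ∣ 4 := ⟨N b, h1.symm⟩
    have h9 : N a ≤ 4 := Nat.le_of_dvd (by norm_num) h8
    have ha := h3 a
    have hb := h3 b
    interval_cases (N a) <;> omega

theorem Od.mul {a b : O} (ha : Od a) (hb : Od b) (hab : IsCoprime a b) : Od (a * b) :=
  ⟨ha.prim.mul hb.prim, squarefree_mul_iff.2 ⟨hab.isRelPrime, ha.sqf, hb.sqf⟩,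
    fun h => (prime_two.dvd_or_dvd h).elim ha.2.2 hb.2.2⟩

theorem od_one : Od 1 :=
  ⟨prim_one, squarefree_one, fun h => prime_two.not_isUnit (isUnit_of_dvd_one h)⟩

theorem Od.isCoprime_four {n : O} (h : Od n) : IsCoprime (4 : O) n := by
  have h2 : IsCoprime (2 : O) n := (prime_two.irreducible.coprime_iff_not_dvd).2 h.2.2
  have : (4 : O) = 2 * 2 := by norm_num
  rw [this]
  exact h2.mul_left h2

/-! ### the decomposition `x = v u²` -/

theorem exists_sq_decomp : ∀ x : O, x ≠ 0 → ∃ v u : O, Squarefree v ∧ u ≠ 0 ∧ x = v * u ^ 2 := by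
  suffices H : ∀ n : ℕ, ∀ x : O, N x = n → x ≠ 0 →
      ∃ v u : O, Squarefree v ∧ u ≠ 0 ∧ x = v * u ^ 2 from fun x hx => H _ x rfl hx
  intro n
  induction n using Nat.strong_induction_on with
  | _ n ih =>
    intro x hn hx
    by_cases hs : Squarefree x
    · exact ⟨x, 1, hs, one_ne_zero, by ring⟩
    · unfold Squarefree at hs
      push Not at hs
      obtain ⟨y, ⟨z, rfl⟩, hy⟩ := hs
      have hy0 : y ≠ 0 := by rintro rfl; simp at hx
      have hz0 : z ≠ 0 := by rintro rfl; simp at hx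
      have h1 : 1 < N y := by
        have h0 := Vale.Agent.P006.N_pos hy0
        have h1 : N y ≠ 1 := fun h => hy (isUnit_iff_N.2 h)
        omega
      have h2 := Vale.Agent.P006.N_pos hz0
      obtain ⟨v, u, hv, hu, rfl⟩ := ih (N z) (by
        rw [← hn, N_mul, N_mul]
        nlinarith [Nat.mul_le_mul h1.le h1.le]) z rfl hz0
      exact ⟨v, u * y, hv, mul_ne_zero hu hy0, by ring⟩

theorem sq_decomp_dvd {v u v' u' : O} (hv' : Squarefree v') (hu : u ≠ 0)
    (h : v * u ^ 2 = v' * u' ^ 2) : u ∣ u' := by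
  classical
  have hg0 : EuclideanDomain.gcd u u' ≠ 0 := fun h0 => hu (EuclideanDomain.gcd_eq_zero_iff.1 h0).1
  obtain ⟨a, ha⟩ := EuclideanDomain.gcd_dvd_left u u'
  obtain ⟨b, hb⟩ := EuclideanDomain.gcd_dvd_right u u'
  set g := EuclideanDomain.gcd u u' with hg
  have hab : IsCoprime a b := by
    have hbez := EuclideanDomain.gcd_eq_gcd_ab u u'
    refine ⟨EuclideanDomain.gcdA u u', EuclideanDomain.gcdB u u', ?_⟩
    apply mul_left_cancel₀ hg0
    rw [mul_one]
    calc g * (EuclideanDomain.gcdA u u' * a + EuclideanDomain.gcdB u u' * b)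
        = (g * a) * EuclideanDomain.gcdA u u' + (g * b) * EuclideanDomain.gcdB u u' := by ring
      _ = g := by rw [← ha, ← hb, ← hbez]
  have h1 : v * a ^ 2 = v' * b ^ 2 := by
    apply mul_left_cancel₀ (pow_ne_zero 2 hg0)
    calc g ^ 2 * (v * a ^ 2) = v * (g * a) ^ 2 := by ring
      _ = v' * (g * b) ^ 2 := by rw [← ha, ← hb, h]
      _ = _ := by ring
  have h2 : a * a ∣ v' := by
    have h3 : IsCoprime (a ^ 2) (b ^ 2) := hab.pow
    have h4 : a ^ 2 ∣ v' * b ^ 2 := ⟨v, by rw [← h1]; ring⟩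
    rw [← sq]
    exact h3.dvd_of_dvd_mul_right h4
  have h5 : IsUnit a := hv' a h2
  rw [ha, hb]
  exact mul_dvd_mul_left g (h5.dvd)

instance finite_units : Finite Oˣ := by
  refine Finite.of_injective (β := (Nle 1 : Finset O))
    (fun u => ⟨(u : O), by rw [mem_Nle, isUnit_iff_N.1 u.isUnit]; simp⟩) ?_
  intro u v h
  exact Units.ext (congrArg Subtype.val h)

/-- the number of units -/
noncomputable def w6 : ℝ := Nat.card Oˣ

theorem w6_nonneg : 0 ≤ w6 := by unfold w6; positivity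

/-- a chosen decomposition -/
noncomputable def dec (x : O) : O × O :=
  if h : x = 0 then (0, 1) else
    ((exists_sq_decomp x h).choose, (exists_sq_decomp x h).choose_spec.choose)

theorem dec_spec {x : O} (h : x ≠ 0) :
    Squarefree (dec x).1 ∧ (dec x).2 ≠ 0 ∧ x = (dec x).1 * (dec x).2 ^ 2 := by
  rw [dec, dif_neg h]
  exact (exists_sq_decomp x h).choose_spec.choose_spec

theorem dec_zero : dec 0 = (0, 1) := by rw [dec, dif_pos rfl]

theorem dec_snd_ne (x : O) : (dec x).2 ≠ 0 := by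
  by_cases h : x = 0
  · rw [h, dec_zero]; exact one_ne_zero
  · exact (dec_spec h).2.1

theorem dec_mul (x : O) : (dec x).1 * (dec x).2 ^ 2 = x := by
  by_cases h : x = 0
  · rw [h, dec_zero]; simp
  · exact (dec_spec h).2.2.symm

/-- the parametrisation of the pairs `(v, u)` -/
noncomputable def phi (p : O × Oˣ) : O × O :=
  ((dec p.1).1 * ((p.2⁻¹ : Oˣ) : O) ^ 2, (dec p.1).2 * p.2)

theorem phi_mul (p : O × Oˣ) : (phi p).1 * (phi p).2 ^ 2 = p.1 := by
  have h1 : ((p.2⁻¹ : Oˣ) : O) * p.2 = 1 := Units.inv_mul p.2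
  calc (phi p).1 * (phi p).2 ^ 2
      = (dec p.1).1 * (dec p.1).2 ^ 2 * (((p.2⁻¹ : Oˣ) : O) * p.2) ^ 2 := by
        simp only [phi]; ring
    _ = p.1 := by rw [h1, dec_mul]; ring

theorem phi_injective : Function.Injective phi := by
  intro p q h
  have h1 : p.1 = q.1 := by rw [← phi_mul p, ← phi_mul q, h]
  have h2 : (phi p).2 = (phi q).2 := by rw [h]
  simp only [phi] at h2
  rw [h1] at h2
  exact Prod.ext h1 (Units.ext (mul_left_cancel₀ (dec_snd_ne _) h2))

theorem phi_surj {v u : O} (hv : Squarefree v) (hu : u ≠ 0) : ∃ p, phi p = (v, u) := by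
  have hx : v * u ^ 2 ≠ 0 := mul_ne_zero hv.ne_zero (pow_ne_zero 2 hu)
  obtain ⟨h1, h2, h3⟩ := dec_spec hx
  have d1 := sq_decomp_dvd h1 hu h3
  have d2 := sq_decomp_dvd hv h2 h3.symm
  obtain ⟨ε, hε⟩ := associated_of_dvd_dvd d2 d1
  refine ⟨(v * u ^ 2, ε), Prod.ext ?_ hε⟩
  have h4 := phi_mul (v * u ^ 2, ε)
  have h5 : (phi (v * u ^ 2, ε)).2 = u := hε
  rw [h5] at h4
  exact mul_right_cancel₀ (pow_ne_zero 2 hu) h4

open Classical in
/-- the function on pairs attached to `F` -/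
noncomputable def pr (F : O → ℂ) (p : O × O) : ℂ :=
  if Squarefree p.1 ∧ p.2 ≠ 0 then F (p.1 * p.2 ^ 2) else 0

theorem pr_phi (F : O → ℂ) (p : O × Oˣ) : pr F (phi p) = (if p.1 = 0 then 0 else F p.1) * 1 := by
  rw [mul_one, pr, phi_mul]
  by_cases h : p.1 = 0
  · rw [if_pos h, if_neg]
    rintro ⟨h1, -⟩
    apply h1.ne_zero
    simp only [phi]
    rw [h, dec_zero, zero_mul]
  · rw [if_neg h, if_pos]
    refine ⟨?_, mul_ne_zero (dec_snd_ne _) p.2.ne_zero⟩
    simp only [phi]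
    have : Associated (dec p.1).1 ((dec p.1).1 * ((p.2⁻¹ : Oˣ) : O) ^ 2) :=
      ⟨p.2⁻¹ ^ 2, by simp⟩
    exact this.squarefree_iff.1 (dec_spec h).1

theorem summable_ite_zero {F : O → ℂ} (hF : Summable F) :
    Summable fun x : O => if x = 0 then (0 : ℂ) else F x := by
  refine Summable.of_norm_bounded hF.norm fun x => ?_
  split_ifs
  · rw [norm_zero]; exact norm_nonneg _
  · exact le_rfl

/-- **every nonzero `x` is `v u²` in `w6` ways** -/
theorem hasSum_pr {F : O → ℂ} (hF : Summable F) :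
    HasSum (pr F) ((w6 : ℂ) * ∑' x : O, if x = 0 then 0 else F x) := by
  rw [← phi_injective.hasSum_iff]
  · have h1 := (summable_ite_zero hF).norm
    have h2 : Summable fun _ : Oˣ => ‖(1 : ℂ)‖ := Summable.of_finite
    have h3 := summable_mul_of_summable_norm h1 h2
    have h4 := tsum_mul_tsum_of_summable_norm h1 h2
    have h5 : (∑' _ : Oˣ, (1 : ℂ)) = (w6 : ℂ) := by
      rw [tsum_const, w6]; simp
    rw [h5, mul_comm] at h4
    rw [h4]
    have h6 : pr F ∘ phi = fun z : O × Oˣ => (if z.1 = 0 then 0 else F z.1) * 1 :=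
      funext (pr_phi F)
    rw [h6]
    exact h3.hasSum
  · rintro ⟨v, u⟩ hp
    rw [pr, if_neg]
    rintro ⟨h1, h2⟩
    exact hp (phi_surj h1 h2)

end Vale.Agent.P026Z.QLS
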