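import Vale.Agent.P026Z.QLS.RecDefs
import Vale.Agent.P026Z.End.LS
import Vale.Agent.P006.H357.Decomp

/-!
P026, block QLS: duality with reciprocity, the recursion `ξ ↦ 2 - 1/ξ`, and the quadratic
large sieve from the Poisson step.
-/

namespace Vale.Agent.P026Z.QLS

open Vale.Agent.P006 Vale.Agent.P006.HB Finset

variable {χ : O → O → ℂ}

theorem QSym.norm_le_one' (hχ : QSym χ) {n : O} (hn : Od n) (x : O) : ‖χ n x‖ ≤ 1 := by
  have h := congrArg norm (hχ.sq n x hn)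
  rw [norm_mul] at h
  have h1 : ‖V1.cop n x‖ ≤ 1 := by
    unfold V1.cop
    split_ifs <;> simp
  nlinarith [norm_nonneg (χ n x)]

theorem LSa.mono_bound {X Y B B' : ℝ} (h : LSa χ X Y B) (hB : B ≤ B') : LSa χ X Y B' :=
  fun T S c hT hS => (h T S c hT hS).trans (by gcongr)

theorem LSa.mono_arg {X X' Y B : ℝ} (h : LSa χ X' Y B) (hX : X ≤ X') : LSa χ X Y B :=
  fun T S c hT hS => h T S c hT fun v hv => ⟨(hS v hv).1, (hS v hv).2.trans hX⟩

theorem LSa.mono_mod {X Y Y' B : ℝ} (h : LSa χ X Y' B) (hY : Y ≤ Y') : LSa χ X Y B :=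
  fun T S c hT hS => h T S c (fun n hn => ⟨(hT n hn).1, (hT n hn).2.trans hY⟩) hS

/-- a squarefree element is a small factor times an odd primary squarefree element -/
theorem sqf_split {v : O} (hv : Squarefree v) :
    ∃ t w : O, t ∈ Hn 12 ∧ Od w ∧ v = t * w ∧ N w ≤ N v := by
  obtain ⟨u, j, m, hu, hm, rfl⟩ := exists_lam_pow v hv.ne_zero
  have hNu : N u = 1 := isUnit_iff_N.1 hu
  have hNl : N lam = 3 := by decide
  have hj : j ≤ 1 := by
    by_contra hj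
    obtain ⟨i, rfl⟩ : ∃ i, j = i + 2 := ⟨j - 2, by omega⟩
    have h1 : IsUnit lam := hv lam ⟨u * lam ^ i * m, by ring⟩
    rw [isUnit_iff_N, hNl] at h1
    omega
  have hmsq : Squarefree m := hv.squarefree_of_dvd (Dvd.intro_left _ rfl)
  have hNt : N (u * lam ^ j) ≤ 3 := by
    interval_cases j
    · rw [pow_zero, mul_one, hNu]; omega
    · rw [pow_one, N_mul, hNu, hNl]
  have ht0 : u * lam ^ j ≠ 0 := mul_ne_zero hu.ne_zero (pow_ne_zero _ lam_ne_zero)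
  have key : ∀ t w : O, t ≠ 0 → N w ≤ N (t * w) := by
    intro t w ht
    rw [N_mul]
    exact Nat.le_mul_of_pos_left _ (N_pos ht)
  by_cases h2 : (2 : O) ∣ m
  · obtain ⟨m', rfl⟩ := h2
    have hp2 : Prim (-2 : O) := ⟨-1, by ring⟩
    have hm' : Prim (-m') := hp2.of_mul_left (by rw [show (-2 : O) * -m' = 2 * m' by ring]; exact hm)
    have hN2 : N (-2 : O) = 4 := by decide
    have h20 : (-2 : O) ≠ 0 := by decide
    have e : u * lam ^ j * (2 * m') = (u * lam ^ j * (-2)) * (-m') := by ring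
    refine ⟨u * lam ^ j * (-2), -m', ?_, ⟨hm', ?_, ?_⟩, e, ?_⟩
    · rw [mem_Hn]
      refine ⟨?_, mul_ne_zero ht0 h20⟩
      rw [N_mul, hN2]
      have : N (u * lam ^ j) * 4 ≤ 12 := by omega
      exact_mod_cast this
    · exact hmsq.squarefree_of_dvd ⟨-2, by ring⟩
    · rintro ⟨c, hc⟩
      have h3 : IsUnit (2 : O) := hmsq 2 ⟨-c, by linear_combination (-2 : O) * hc⟩
      rw [isUnit_iff_N] at h3
      revert h3; decide
    · rw [e]; exact key _ _ (mul_ne_zero ht0 h20)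
  · refine ⟨u * lam ^ j, m, ?_, ⟨hm, hmsq, h2⟩, rfl, key _ _ ht0⟩
    rw [mem_Hn]
    refine ⟨?_, ht0⟩
    have : N (u * lam ^ j) ≤ 12 := by omega
    exact_mod_cast this

/-- representatives of the classes modulo four -/
def R4 : Finset O := (Finset.range 4 ×ˢ Finset.range 4).image fun p => ⟨(p.1 : ℤ), (p.2 : ℤ)⟩

theorem exists_R4 (w : O) : ∃ r ∈ R4, (4 : O) ∣ w - r := by
  have h1 : 0 ≤ w.re % 4 := Int.emod_nonneg _ (by norm_num)
  have h2 : w.re % 4 < 4 := Int.emod_lt_of_pos _ (by norm_num)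
  have h3 : 0 ≤ w.im % 4 := Int.emod_nonneg _ (by norm_num)
  have h4 : w.im % 4 < 4 := Int.emod_lt_of_pos _ (by norm_num)
  refine ⟨⟨w.re % 4, w.im % 4⟩, ?_, ⟨⟨w.re / 4, w.im / 4⟩, ?_⟩⟩
  · rw [R4, mem_image]
    refine ⟨((w.re % 4).toNat, (w.im % 4).toNat), ?_, ?_⟩
    · simp only [mem_product, mem_range]
      constructor <;> omega
    · ext
      · simp only; omega
      · simp only; omega
  · have h5 : (4 : O) = ⟨4, 0⟩ := by decide
    rw [h5]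
    ext
    · simp; omega
    · simp; omega

/-- the constant lost in the duality -/
noncomputable def cDual : ℝ := (Hn 12).card * R4.card

theorem cDual_nonneg : 0 ≤ cDual := by unfold cDual; positivity

/-- **duality with reciprocity** -/
theorem LSa.dual (hχ : QSym χ) {X Y B : ℝ} (hB : 0 ≤ B) (h : LSa χ Y X B) :
    LSa χ X Y (cDual * B) := by
  classical
  intro T S c hT hS
  obtain ⟨ε, hε1, hε2, hε3⟩ := hχ.recip
  set W : Finset O := (SF X).filter (fun w => ¬ (2 : O) ∣ w) with hW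
  have hWm : ∀ w ∈ W, Od w ∧ (N w : ℝ) ≤ X := by
    intro w hw
    rw [hW, mem_filter, mem_SF] at hw
    exact ⟨⟨hw.1.2.1, hw.1.2.2, hw.2⟩, hw.1.1⟩
  have hdual : ∀ b : O → ℂ,
      ∑ w ∈ W, ‖∑ n ∈ T, b n * χ w n‖ ^ 2 ≤ B * ∑ n ∈ T, ‖b n‖ ^ 2 :=
    duality T W (fun n w => χ w n) hB
      (fun a => h W T a hWm fun n hn => ⟨(hT n hn).1.2.1, (hT n hn).2⟩)
  set g : O → ℝ := fun v => ‖∑ n ∈ T, c n * χ n v‖ ^ 2 with hg
  have h1 : ∑ v ∈ S, g v ≤ ∑ p ∈ Hn 12 ×ˢ W, g (p.1 * p.2) := by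
    refine sum_le_sum_cover S _ (fun p : O × O => p.1 * p.2) ?_ g fun v => by positivity
    intro v hv
    obtain ⟨t, w, ht, hw, e, hN⟩ := sqf_split (hS v hv).1
    refine ⟨(t, w), ?_, e.symm⟩
    rw [mem_product]
    refine ⟨ht, ?_⟩
    rw [hW, mem_filter, mem_SF]
    exact ⟨⟨(by exact_mod_cast hN : (N w : ℝ) ≤ N v).trans (hS v hv).2, hw.1, hw.2.1⟩, hw.2.2⟩
  have h2 : ∀ t : O, ∑ w ∈ W, g (t * w) ≤ R4.card * (B * ∑ n ∈ T, ‖c n‖ ^ 2) := by
    intro t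
    have h3 : ∀ w ∈ W, g (t * w) ≤
        ∑ r ∈ R4, ‖∑ n ∈ T, (c n * χ n t * ε n r) * χ w n‖ ^ 2 := by
      intro w hw
      obtain ⟨r, hr, hwr⟩ := exists_R4 w
      refine le_trans (le_of_eq ?_) (single_le_sum
        (f := fun r => ‖∑ n ∈ T, (c n * χ n t * ε n r) * χ w n‖ ^ 2) (fun _ _ => by positivity) hr)
      simp only [hg]
      congr 2
      refine sum_congr rfl fun n hn => ?_
      rw [hχ.mul_right n t w (hT n hn).1, hε3 n w (hT n hn).1 (hWm w hw).1, hε2 n w r hwr]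
      ring
    calc ∑ w ∈ W, g (t * w)
        ≤ ∑ w ∈ W, ∑ r ∈ R4, ‖∑ n ∈ T, (c n * χ n t * ε n r) * χ w n‖ ^ 2 := sum_le_sum h3
      _ = ∑ r ∈ R4, ∑ w ∈ W, ‖∑ n ∈ T, (c n * χ n t * ε n r) * χ w n‖ ^ 2 := sum_comm
      _ ≤ ∑ r ∈ R4, B * ∑ n ∈ T, ‖c n‖ ^ 2 := by
          refine sum_le_sum fun r _ => (hdual _).trans ?_
          gcongr with n hn
          rw [norm_mul, norm_mul]
          have a1 := hχ.norm_le_one' (hT n hn).1 t
          have a2 := hε1 n r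
          calc ‖c n‖ * ‖χ n t‖ * ‖ε n r‖ ≤ ‖c n‖ * 1 * 1 := by gcongr
            _ = ‖c n‖ := by ring
      _ = _ := by rw [sum_const, nsmul_eq_mul]
  calc ∑ v ∈ S, g v ≤ ∑ p ∈ Hn 12 ×ˢ W, g (p.1 * p.2) := h1
    _ = ∑ t ∈ Hn 12, ∑ w ∈ W, g (t * w) := sum_product _ _ _
    _ ≤ ∑ t ∈ Hn 12, R4.card * (B * ∑ n ∈ T, ‖c n‖ ^ 2) := sum_le_sum fun t _ => h2 t
    _ = _ := by rw [sum_const, nsmul_eq_mul, cDual]; ring

theorem hypD_of_hyp (hχ : QSym χ) {ξ : ℝ} (h : Hyp χ ξ) : HypD χ ξ := by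
  intro ε hε
  obtain ⟨C, hC, h1⟩ := h ε hε
  have hc := cDual_nonneg
  refine ⟨(cDual + 1) * C, by positivity, fun X Y hX hY => ?_⟩
  have hX0 : 0 < X := by linarith
  have hY0 : 0 < Y := by linarith
  refine ((h1 Y X hY hX).dual hχ (by positivity)).mono_bound ?_
  rw [mul_comm Y X, add_comm Y]
  have : 0 ≤ C * (X * Y) ^ ε * (X ^ ξ + Y) := by positivity
  nlinarith

/-- the ordinary large sieve is the starting point -/
theorem hyp_two (hP : ∀ n, Od n → CLS.PChar n (χ n)) : Hyp χ 2 := by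
  intro ε hε
  have hc := CLS.cLS2_nonneg
  refine ⟨CLS.cLS2 + 1, by positivity, fun X Y hX hY T S c hT hS => ?_⟩
  have h := End.dual_ls (chi := χ) (T := T) hY hX
    (fun n hn => ⟨(hT n hn).1.1, (hT n hn).2, hP n (hT n hn).1⟩) S (fun u hu => (hS u hu).2) c
  refine h.trans ?_
  have h1 : 1 ≤ (X * Y) ^ ε := Real.one_le_rpow (by nlinarith) hε.le
  rw [Real.rpow_two]
  gcongr
  nlinarith

theorem hyp_step {ξ : ℝ} (h1 : 1 ≤ ξ) (h : StepOut χ ξ) : Hyp χ (2 - 1 / ξ) := by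
  intro ε hε
  obtain ⟨C, hC, hs⟩ := h (ε / 3) (by positivity)
  refine ⟨4 * C, by positivity, fun X Y hX hY => ?_⟩
  have hξ : 0 < ξ := by linarith
  have hi : 1 / ξ ≤ 1 := by rw [div_le_one hξ]; exact h1
  have hi0 : 0 < 1 / ξ := by positivity
  set η : ℝ := 2 - 1 / ξ with hη
  have hY0 : 0 < Y := by linarith
  set Z : ℝ := max X (Y ^ η) with hZ
  have hXZ : X ≤ Z := le_max_left _ _
  have hYZ : Y ^ η ≤ Z := le_max_right _ _
  have hZ1 : 1 ≤ Z := hX.trans hXZ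
  have hZ0 : 0 < Z := by linarith
  have hYη : Y ≤ Y ^ η := by
    calc Y = Y ^ (1 : ℝ) := (Real.rpow_one Y).symm
      _ ≤ Y ^ η := Real.rpow_le_rpow_of_exponent_le hY (by linarith)
  have hYη2 : Y ^ η ≤ Y ^ 2 := by
    rw [← Real.rpow_two]
    exact Real.rpow_le_rpow_of_exponent_le hY (by linarith)
  have h2ξ : 0 < 2 * ξ - 1 := by linarith
  set K : ℝ := max 1 (Y ^ 2 / Z) with hK
  have hK1 : 1 ≤ K := le_max_left _ _
  have hKZ : K ≤ Z ^ (1 / (2 * ξ - 1)) := by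
    refine max_le (Real.one_le_rpow hZ1 (by positivity)) ?_
    have hη0 : 0 < η := by linarith
    have e1 : Y ^ 2 = (Y ^ η) ^ (2 / η) := by
      rw [← Real.rpow_mul hY0.le, ← Real.rpow_two]
      congr 1; field_simp
    have e2 : 2 / η = 1 / (2 * ξ - 1) + 1 := by
      rw [hη]; field_simp; ring
    rw [div_le_iff₀ hZ0, ← Real.rpow_add_one hZ0.ne', ← e2, e1]
    exact Real.rpow_le_rpow (by positivity) hYZ (by positivity)
  have hA : Real.sqrt Z * K ^ (ξ - 1 / 2) ≤ Z := by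
    have a1 : K ^ (ξ - 1 / 2) ≤ (Z ^ (1 / (2 * ξ - 1))) ^ (ξ - 1 / 2) :=
      Real.rpow_le_rpow (by linarith) hKZ (by linarith)
    rw [← Real.rpow_mul hZ0.le, show 1 / (2 * ξ - 1) * (ξ - 1 / 2) = 1 / 2 by field_simp,
      ← Real.sqrt_eq_rpow] at a1
    calc Real.sqrt Z * K ^ (ξ - 1 / 2) ≤ Real.sqrt Z * Real.sqrt Z := by gcongr
      _ = Z := Real.mul_self_sqrt hZ0.le
  have hB : K ^ ξ ≤ Z := by
    have a1 : K ^ ξ ≤ (Z ^ (1 / (2 * ξ - 1))) ^ ξ := Real.rpow_le_rpow (by linarith) hKZ hξ.le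
    rw [← Real.rpow_mul hZ0.le] at a1
    refine a1.trans ?_
    calc Z ^ (1 / (2 * ξ - 1) * ξ) ≤ Z ^ (1 : ℝ) := by
          refine Real.rpow_le_rpow_of_exponent_le hZ1 ?_
          rw [div_mul_eq_mul_div, one_mul, div_le_one h2ξ]
          linarith
      _ = Z := Real.rpow_one Z
  have hZle : Z ≤ X + Y ^ η := max_le (by linarith [Real.rpow_pos_of_pos hY0 η]) (by linarith)
  have hZY : Z * Y ≤ (X * Y) ^ 3 := by
    have a1 : Z ≤ X * Y ^ 2 := by
      refine max_le ?_ (hYη2.trans ?_)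
      · exact le_mul_of_one_le_right (by linarith) (one_le_pow₀ hY)
      · exact le_mul_of_one_le_left (by positivity) hX
    have a2 : X ≤ X ^ 3 := le_self_pow₀ hX (by norm_num)
    calc Z * Y ≤ X * Y ^ 2 * Y := by gcongr
      _ = X * Y ^ 3 := by ring
      _ ≤ X ^ 3 * Y ^ 3 := by gcongr
      _ = (X * Y) ^ 3 := by ring
  have hpow : (Z * Y) ^ (ε / 3) ≤ (X * Y) ^ ε := by
    calc (Z * Y) ^ (ε / 3) ≤ ((X * Y) ^ 3) ^ (ε / 3) :=
          Real.rpow_le_rpow (by positivity) hZY (by positivity)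
      _ = (X * Y) ^ ε := by
          rw [← Real.rpow_natCast, ← Real.rpow_mul (by positivity)]
          congr 1; push_cast; ring
  refine ((hs Z Y hZ1 hY).mono_arg hXZ).mono_bound ?_
  rw [← hK]
  calc C * (Z * Y) ^ (ε / 3) * (Z + Y + Real.sqrt Z * K ^ (ξ - 1 / 2) + K ^ ξ)
      ≤ C * (X * Y) ^ ε * (4 * Z) := by gcongr; linarith
    _ ≤ C * (X * Y) ^ ε * (4 * (X + Y ^ η)) := by gcongr
    _ = _ := by ring

theorem hyp_iter (hχ : QSym χ) (h2 : Hyp χ 2) (hS : Step χ) (r : ℕ) :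
    Hyp χ (1 + 1 / ((r : ℝ) + 1)) := by
  induction r with
  | zero => norm_num; exact h2
  | succ r ih =>
    have hr : (0 : ℝ) < r + 1 := by positivity
    have a1 : 1 ≤ 1 + 1 / ((r : ℝ) + 1) := by
      have : 0 < 1 / ((r : ℝ) + 1) := by positivity
      linarith
    have a2 : 1 + 1 / ((r : ℝ) + 1) ≤ 2 := by
      have : 1 / ((r : ℝ) + 1) ≤ 1 := by
        rw [div_le_one hr]; linarith [(Nat.cast_nonneg r : (0 : ℝ) ≤ r)]
      linarith
    have h := hyp_step a1 (hS _ a1 a2 (hypD_of_hyp hχ ih))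
    have e : 2 - 1 / (1 + 1 / ((r : ℝ) + 1)) = 1 + 1 / (((r + 1 : ℕ) : ℝ) + 1) := by
      push_cast; field_simp; ring
    rwa [e] at h

theorem qls_arg_of_hyp (hχ : QSym χ) (h2 : Hyp χ 2) (hS : Step χ) : QLSarg χ := by
  intro ε hε
  obtain ⟨r, hr⟩ := exists_nat_one_div_lt (half_pos hε)
  obtain ⟨C, hC, h⟩ := hyp_iter hχ h2 hS r (ε / 2) (half_pos hε)
  refine ⟨C, hC, fun X Y T S c hX hY hT hS' => (h X Y hX hY T S c hT hS').trans ?_⟩
  have hX0 : 0 < X := by linarith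
  have hY0 : 0 < Y := by linarith
  have hXY : 1 ≤ X * Y := by nlinarith
  have a1 : 1 ≤ (X * Y) ^ (ε / 2) := Real.one_le_rpow hXY (by positivity)
  have a2 : Y ^ (1 + 1 / ((r : ℝ) + 1)) ≤ (X * Y) ^ (ε / 2) * Y := by
    rw [add_comm, Real.rpow_add_one hY0.ne']
    gcongr
    calc Y ^ (1 / ((r : ℝ) + 1)) ≤ Y ^ (ε / 2) := Real.rpow_le_rpow_of_exponent_le hY hr.le
      _ ≤ (X * Y) ^ (ε / 2) :=
          Real.rpow_le_rpow hY0.le (le_mul_of_one_le_left hY0.le hX) (by positivity)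
  have a3 : X + Y ^ (1 + 1 / ((r : ℝ) + 1)) ≤ (X * Y) ^ (ε / 2) * (X + Y) := by
    rw [mul_add]
    have : X ≤ (X * Y) ^ (ε / 2) * X := le_mul_of_one_le_left hX0.le a1
    linarith
  have a4 : (X * Y) ^ ε = (X * Y) ^ (ε / 2) * (X * Y) ^ (ε / 2) := by
    rw [← Real.rpow_add (by positivity)]; congr 1; ring
  gcongr ?_ * _
  rw [a4]
  calc C * (X * Y) ^ (ε / 2) * (X + Y ^ (1 + 1 / ((r : ℝ) + 1)))
      ≤ C * (X * Y) ^ (ε / 2) * ((X * Y) ^ (ε / 2) * (X + Y)) := by gcongr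
    _ = _ := by ring

theorem qls_mod_of_arg (h : QLSarg χ) : QLSmod χ := by
  intro ε hε
  obtain ⟨C, hC, h1⟩ := h ε hε
  refine ⟨C, hC, fun X Y T S c hX hY hT hS => ?_⟩
  have hX0 : 0 < X := by linarith
  have hY0 : 0 < Y := by linarith
  exact duality S T (fun v n => χ n v) (by positivity) (fun a => h1 X Y T S a hX hY hT hS) c

theorem qls_arg (hχ : QSym χ) (hP : ∀ n, Od n → CLS.PChar n (χ n)) (hS : Step χ) : QLSarg χ :=
  qls_arg_of_hyp hχ (hyp_two hP) hS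

theorem qls_mod (hχ : QSym χ) (hP : ∀ n, Od n → CLS.PChar n (χ n)) (hS : Step χ) : QLSmod χ :=
  qls_mod_of_arg (qls_arg hχ hP hS)

end Vale.Agent.P026Z.QLS
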