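import Vale.Agent.P026Z.QLS.ClsDefs
import Vale.Agent.P026Z.QLS.Rec

/-!
P026, block QLS: reduction to moduli in one dyadic range and one class modulo four.
-/

namespace Vale.Agent.P026Z.QLS

open Vale.Agent.P006 Vale.Agent.P006.HB Finset

variable {χ : O → O → ℂ}

/-- splitting the inner sum into finitely many classes -/
theorem split_classes {ι : Type*} [DecidableEq ι] (I : Finset ι) (T S : Finset O) (g : O → ι)
    (hg : ∀ n ∈ T, g n ∈ I) (M : O → O → ℂ) (c : O → ℂ) {B : ℝ}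
    (h : ∀ i ∈ I, ∑ v ∈ S, ‖∑ n ∈ T.filter (fun n => g n = i), c n * M n v‖ ^ 2 ≤
      B * ∑ n ∈ T.filter (fun n => g n = i), ‖c n‖ ^ 2) :
    ∑ v ∈ S, ‖∑ n ∈ T, c n * M n v‖ ^ 2 ≤ I.card * B * ∑ n ∈ T, ‖c n‖ ^ 2 := by
  have h1 : ∀ v ∈ S, ‖∑ n ∈ T, c n * M n v‖ ^ 2 ≤
      I.card * ∑ i ∈ I, ‖∑ n ∈ T.filter (fun n => g n = i), c n * M n v‖ ^ 2 := by
    intro v _
    rw [← sum_fiberwise_of_maps_to hg]
    have h2 := norm_sum_mul_sq_le I (fun _ => (1 : ℂ))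
      (fun i => ∑ n ∈ T.filter (fun n => g n = i), c n * M n v)
    simpa using h2
  calc ∑ v ∈ S, ‖∑ n ∈ T, c n * M n v‖ ^ 2
      ≤ ∑ v ∈ S, I.card * ∑ i ∈ I, ‖∑ n ∈ T.filter (fun n => g n = i), c n * M n v‖ ^ 2 :=
        sum_le_sum h1
    _ = I.card * ∑ i ∈ I, ∑ v ∈ S, ‖∑ n ∈ T.filter (fun n => g n = i), c n * M n v‖ ^ 2 := by
        rw [← mul_sum, sum_comm]
    _ ≤ I.card * ∑ i ∈ I, B * ∑ n ∈ T.filter (fun n => g n = i), ‖c n‖ ^ 2 := by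
        gcongr with i hi
        exact h i hi
    _ = _ := by rw [← mul_sum, sum_fiberwise_of_maps_to hg]; ring

theorem log_count' {ε : ℝ} (hε : 0 < ε) :
    ∃ C : ℝ, 0 < C ∧ ∀ K : ℝ, 1 ≤ K → ((Nat.log 2 ⌊K⌋₊ + 1 : ℕ) : ℝ) ≤ C * K ^ ε := by
  have hl2 : 0 < Real.log 2 := Real.log_pos (by norm_num)
  refine ⟨1 + 1 / (ε * Real.log 2), by positivity, fun K hK => ?_⟩
  have hf : 1 ≤ ⌊K⌋₊ := (Nat.one_le_floor_iff K).2 hK
  have h1 : (2 : ℝ) ^ (Nat.log 2 ⌊K⌋₊) ≤ K := by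
    have h2 : 2 ^ (Nat.log 2 ⌊K⌋₊) ≤ ⌊K⌋₊ := Nat.pow_log_le_self 2 (by omega)
    calc (2 : ℝ) ^ (Nat.log 2 ⌊K⌋₊) = ((2 ^ (Nat.log 2 ⌊K⌋₊) : ℕ) : ℝ) := by push_cast; rfl
      _ ≤ ((⌊K⌋₊ : ℕ) : ℝ) := by exact_mod_cast h2
      _ ≤ K := Nat.floor_le (by linarith)
  have h3 : (Nat.log 2 ⌊K⌋₊ : ℝ) * Real.log 2 ≤ Real.log K := by
    rw [← Real.log_pow]
    exact Real.log_le_log (by positivity) h1
  have h4 : Real.log K ≤ K ^ ε / ε := Real.log_le_rpow_div (by linarith) hε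
  have h5 : (1 : ℝ) ≤ K ^ ε := Real.one_le_rpow hK hε.le
  push_cast
  have h6 : (Nat.log 2 ⌊K⌋₊ : ℝ) ≤ 1 / (ε * Real.log 2) * K ^ ε := by
    rw [← le_div_iff₀ hl2] at h3
    refine h3.trans ?_
    rw [div_le_iff₀ hl2]
    refine h4.trans (le_of_eq ?_)
    field_simp
  linarith

/-- the dyadic class of a real number `x ≥ 1` -/
theorem dyadic_spec {x : ℝ} (hx : 1 ≤ x) :
    (2 : ℝ) ^ (Nat.log 2 ⌊x⌋₊) ≤ x ∧ x < 2 * 2 ^ (Nat.log 2 ⌊x⌋₊) := by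
  have hf : 1 ≤ ⌊x⌋₊ := (Nat.one_le_floor_iff x).2 hx
  constructor
  · have h2 : 2 ^ (Nat.log 2 ⌊x⌋₊) ≤ ⌊x⌋₊ := Nat.pow_log_le_self 2 (by omega)
    calc (2 : ℝ) ^ (Nat.log 2 ⌊x⌋₊) = ((2 ^ (Nat.log 2 ⌊x⌋₊) : ℕ) : ℝ) := by push_cast; rfl
      _ ≤ ((⌊x⌋₊ : ℕ) : ℝ) := by exact_mod_cast h2
      _ ≤ x := Nat.floor_le (by linarith)
  · have h2 : ⌊x⌋₊ + 1 ≤ 2 ^ (Nat.log 2 ⌊x⌋₊ + 1) := Nat.lt_pow_succ_log_self (by norm_num) _
    calc x < (⌊x⌋₊ : ℝ) + 1 := Nat.lt_floor_add_one x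
      _ ≤ ((2 ^ (Nat.log 2 ⌊x⌋₊ + 1) : ℕ) : ℝ) := by exact_mod_cast h2
      _ = _ := by push_cast; ring

/-- a chosen representative modulo four -/
noncomputable def r4 (w : O) : O := (exists_R4 w).choose

theorem r4_mem (w : O) : r4 w ∈ R4 := (exists_R4 w).choose_spec.1

theorem r4_dvd (w : O) : (4 : O) ∣ w - r4 w := (exists_R4 w).choose_spec.2

theorem stepOut_of_cls {ξ : ℝ} (h1 : 1 ≤ ξ) (h : StepC χ ξ) : StepOut χ ξ := by
  classical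
  intro ε hε
  obtain ⟨C1, hC1, hs⟩ := h (ε / 2) (half_pos hε)
  obtain ⟨C2, hC2, hl⟩ := log_count' (half_pos hε)
  refine ⟨(R4.card + 1) * C2 * C1, by positivity, fun X Y hX hY T S c hT hS => ?_⟩
  have hX0 : 0 < X := by linarith
  have hY0 : 0 < Y := by linarith
  set V : ℝ → ℝ := fun Y => X + Y + Real.sqrt X * (max 1 (Y ^ 2 / X)) ^ (ξ - 1 / 2) +
      (max 1 (Y ^ 2 / X)) ^ ξ with hV
  have hV0 : 0 ≤ V Y := by simp only [hV]; positivity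
  set J : ℕ := Nat.log 2 ⌊Y⌋₊ + 1 with hJ
  set g : O → O × ℕ := fun n => (r4 n, Nat.log 2 ⌊Y / N n⌋₊) with hg
  have hN : ∀ n ∈ T, (1 : ℝ) ≤ N n := fun n hn => by exact_mod_cast (hT n hn).1.1.N_pos
  have hgI : ∀ n ∈ T, g n ∈ R4 ×ˢ range J := by
    intro n hn
    rw [mem_product, mem_range]
    refine ⟨r4_mem n, ?_⟩
    have : Nat.log 2 ⌊Y / N n⌋₊ ≤ Nat.log 2 ⌊Y⌋₊ :=
      Nat.log_mono_right (Nat.floor_mono (div_le_self hY0.le (hN n hn)))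
    simp only [hg, hJ]
    omega
  have key := split_classes (R4 ×ˢ range J) T S g hgI χ c
    (B := C1 * (X * Y) ^ (ε / 2) * V Y) ?_
  · refine key.trans ?_
    gcongr ?_ * _
    rw [card_product, card_range]
    have a1 := hl Y hY
    rw [← hJ] at a1
    have a2 : Y ^ (ε / 2) ≤ (X * Y) ^ (ε / 2) :=
      Real.rpow_le_rpow hY0.le (le_mul_of_one_le_left hY0.le hX) (half_pos hε).le
    have a4 : (X * Y) ^ ε = (X * Y) ^ (ε / 2) * (X * Y) ^ (ε / 2) := by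
      rw [← Real.rpow_add (by positivity)]; congr 1; ring
    rw [a4, Nat.cast_mul]
    calc (R4.card : ℝ) * J * (C1 * (X * Y) ^ (ε / 2) * V Y)
        ≤ (R4.card + 1) * (C2 * (X * Y) ^ (ε / 2)) * (C1 * (X * Y) ^ (ε / 2) * V Y) := by
          gcongr
          · linarith
          · exact a1.trans (by gcongr)
      _ = _ := by simp only [hV]; ring
  · rintro ⟨r, i⟩ hi
    rw [mem_product, mem_range] at hi
    have hp : (2 : ℝ) ^ i ≤ Y := by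
      refine le_trans ?_ (dyadic_spec hY).1
      exact pow_le_pow_right₀ (by norm_num) (by have := hi.2; simp only [hJ] at this; omega)
    have hp0 : (0 : ℝ) < 2 ^ i := by positivity
    set Yi : ℝ := Y / 2 ^ i with hYi
    have hYi1 : 1 ≤ Yi := by rw [hYi, le_div_iff₀ hp0, one_mul]; exact hp
    have hYiY : Yi ≤ Y := div_le_self hY0.le (one_le_pow₀ (by norm_num))
    refine (hs X Yi hX hYi1 _ S c ?_ ?_ hS).trans ?_
    · intro n hn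
      rw [mem_filter] at hn
      have hn1 := hN n hn.1
      have hn0 : (0 : ℝ) < N n := by linarith
      have hi2 : Nat.log 2 ⌊Y / N n⌋₊ = i := (Prod.ext_iff.1 hn.2).2
      have hq : 1 ≤ Y / N n := by rw [le_div_iff₀ hn0, one_mul]; exact (hT n hn.1).2
      obtain ⟨b1, b2⟩ := dyadic_spec hq
      rw [hi2] at b1 b2
      rw [le_div_iff₀ hn0] at b1
      rw [div_lt_iff₀ hn0] at b2
      refine ⟨(hT n hn.1).1, ?_, ?_⟩
      · rw [hYi, le_div_iff₀ hp0]; linarith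
      · rw [hYi, div_lt_iff₀ hp0]; linarith
    · intro k hk l hl'
      rw [mem_filter] at hk hl'
      have e1 : r4 k = r := (Prod.ext_iff.1 hk.2).1
      have e2 : r4 l = r := (Prod.ext_iff.1 hl'.2).1
      have d1 := r4_dvd k
      have d2 := r4_dvd l
      rw [e1] at d1
      rw [e2] at d2
      have := dvd_sub d1 d2
      rwa [sub_sub_sub_cancel_right] at this
    · have hK : max 1 (Yi ^ 2 / X) ≤ max 1 (Y ^ 2 / X) := by gcongr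
      have hK0 : 0 ≤ max 1 (Yi ^ 2 / X) := le_trans zero_le_one (le_max_left _ _)
      have b1 : (max 1 (Yi ^ 2 / X)) ^ (ξ - 1 / 2) ≤ (max 1 (Y ^ 2 / X)) ^ (ξ - 1 / 2) :=
        Real.rpow_le_rpow hK0 hK (by linarith)
      have b2 : (max 1 (Yi ^ 2 / X)) ^ ξ ≤ (max 1 (Y ^ 2 / X)) ^ ξ :=
        Real.rpow_le_rpow hK0 hK (by linarith)
      simp only [hV]
      gcongr

end Vale.Agent.P026Z.QLS
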