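import Vale.Agent.P026Z.QLS.RecDefs

/-!
P026, block QLS: the Poisson step for moduli in one dyadic range and one class modulo four.
-/

namespace Vale.Agent.P026Z.QLS

open Vale.Agent.P006

/-- `LSa` for moduli in one dyadic range and one class modulo `4` -/
def LSc (χ : O → O → ℂ) (X Y B : ℝ) : Prop :=
  ∀ (T S : Finset O) (c : O → ℂ), (∀ n ∈ T, Od n ∧ (N n : ℝ) ≤ Y ∧ Y < 2 * N n) →
    (∀ k ∈ T, ∀ l ∈ T, (4 : O) ∣ k - l) → (∀ v ∈ S, Squarefree v ∧ (N v : ℝ) ≤ X) →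
    ∑ v ∈ S, ‖∑ n ∈ T, c n * χ n v‖ ^ 2 ≤ B * ∑ n ∈ T, ‖c n‖ ^ 2

/-- `StepOut` for moduli in one dyadic range and one class modulo `4` -/
def StepC (χ : O → O → ℂ) (ξ : ℝ) : Prop :=
  ∀ ε : ℝ, 0 < ε → ∃ C : ℝ, 0 < C ∧ ∀ X Y : ℝ, 1 ≤ X → 1 ≤ Y →
    LSc χ X Y (C * (X * Y) ^ ε * (X + Y + Real.sqrt X * (max 1 (Y ^ 2 / X)) ^ (ξ - 1 / 2) +
      (max 1 (Y ^ 2 / X)) ^ ξ))

end Vale.Agent.P026Z.QLS
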