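import Vale.Agent.P006.PS.Level
import Vale.Agent.P006.H357.Defs

/-!
P026, block QLS (quadratic large sieve on `O = ℤ[ω]`): definitions and interfaces.
-/

namespace Vale.Agent.P026Z.QLS

open Vale.Agent.P006 Vale.Agent.P006.V1 Vale.Agent.P006.HB Vale.Agent.P006.PS
open MeasureTheory

/-- odd, primary, squarefree -/
def Od (n : O) : Prop := Prim n ∧ Squarefree n ∧ ¬ (2 : O) ∣ n

/-- The properties of the quadratic residue symbol `χ n x = (x/n)_2` used in this block. -/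
structure QSym (χ : O → O → ℂ) : Prop where
  mul_right : ∀ n x y : O, Od n → χ n (x * y) = χ n x * χ n y
  mul_left : ∀ a b x : O, Od a → Od b → IsCoprime a b → χ (a * b) x = χ a x * χ b x
  sq : ∀ n x : O, Od n → χ n x * χ n x = cop n x
  per : ∀ n : O, Od n → V1.Per n (χ n)
  gauss : ∀ a b h : O, Od a → Od b → IsCoprime a b → (4 : O) ∣ a - b →
    rsum (a * b) (fun x => χ (a * b) x * E (sq3 * (a * b)) (x * h)) =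
      ((Real.sqrt (N (a * b)) : ℝ) : ℂ) * χ (a * b) h
  recip : ∃ ε : O → O → ℂ, (∀ a b, ‖ε a b‖ ≤ 1) ∧
    (∀ a b b', (4 : O) ∣ b - b' → ε a b = ε a b') ∧
    ∀ a b, Od a → Od b → χ a b = ε a b * χ b a

/-- The quadratic large sieve, outer sum over the moduli (the form used after Voronoi). -/
def QLSmod (χ : O → O → ℂ) : Prop :=
  ∀ ε : ℝ, 0 < ε → ∃ C : ℝ, 0 < C ∧ ∀ (X Y : ℝ) (T S : Finset O) (c : O → ℂ), 1 ≤ X → 1 ≤ Y →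
    (∀ n ∈ T, Od n ∧ (N n : ℝ) ≤ Y) → (∀ v ∈ S, Squarefree v ∧ (N v : ℝ) ≤ X) →
    ∑ n ∈ T, ‖∑ v ∈ S, c v * χ n v‖ ^ 2 ≤ C * (X * Y) ^ ε * (X + Y) * ∑ v ∈ S, ‖c v‖ ^ 2

/-- The quadratic large sieve, inner sum over the moduli. -/
def QLSarg (χ : O → O → ℂ) : Prop :=
  ∀ ε : ℝ, 0 < ε → ∃ C : ℝ, 0 < C ∧ ∀ (X Y : ℝ) (T S : Finset O) (c : O → ℂ), 1 ≤ X → 1 ≤ Y →
    (∀ n ∈ T, Od n ∧ (N n : ℝ) ≤ Y) → (∀ v ∈ S, Squarefree v ∧ (N v : ℝ) ≤ X) →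
    ∑ v ∈ S, ‖∑ n ∈ T, c n * χ n v‖ ^ 2 ≤ C * (X * Y) ^ ε * (X + Y) * ∑ n ∈ T, ‖c n‖ ^ 2

/-- `∑_{u ≠ 0} exp (-s N(u)²)` -/
noncomputable def th (s : ℝ) : ℝ :=
  ∑' u : O, if u = 0 then 0 else Real.exp (-(s * (N u : ℝ) ^ 2))

/-- `F(x) = ∫ ρ(t) x^(-σ + 2π i t) dt` with `ρ` continuous and `≪ 1/(1+t²)` -/
def MelRep (F : ℝ → ℝ) (σ : ℝ) : Prop :=
  ∃ (ρ : ℝ → ℂ) (C : ℝ), 0 < C ∧ Continuous ρ ∧ (∀ t, ‖ρ t‖ ≤ C * (1 + t ^ 2)⁻¹) ∧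
    ∀ x : ℝ, 0 < x → (F x : ℂ) =
      ∫ t : ℝ, ρ t * (x : ℂ) ^ (-(σ : ℂ) + 2 * Real.pi * t * Complex.I)

/-- The two Mellin representations of `th` (to the right and to the left of the pole). -/
def ThMellin : Prop :=
  (∀ σ : ℝ, 1 / 2 < σ → MelRep th σ) ∧
    ∃ c₀ : ℝ, ∀ σ : ℝ, 0 < σ → σ < 1 / 2 → MelRep (fun s => th s - c₀ / Real.sqrt s) σ

end Vale.Agent.P026Z.QLS
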