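import Vale.Agent.P026Z.QLS.Level
import Vale.Agent.P026Z.QLS.ClsDefs

/-!
P026, block QLS: the Poisson step of the recursion.
-/

namespace Vale.Agent.P026Z.QLS

open Vale.Agent.P006 Vale.Agent.P006.V1 Vale.Agent.P006.HB Vale.Agent.P006.PS
open Finset
open scoped ComplexConjugate

/-- the off-diagonal part of one pair -/
noncomputable def ot (χ : O → O → ℂ) (c₀ K A : ℝ) (δ a b : O) : ℂ :=
  ∑ d ∈ D δ, ∑' v : O, dualT χ c₀ K A δ d a b v - ∑ v ∈ Sq K, primT χ c₀ A δ a b v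

theorem sum3_comm {S T U : Finset O} (f : O → O → O → ℂ) :
    ∑ k ∈ S, ∑ l ∈ T, ∑ δ ∈ U, f k l δ = ∑ δ ∈ U, ∑ k ∈ S, ∑ l ∈ T, f k l δ := by
  calc ∑ k ∈ S, ∑ l ∈ T, ∑ δ ∈ U, f k l δ = ∑ k ∈ S, ∑ δ ∈ U, ∑ l ∈ T, f k l δ :=
        sum_congr rfl fun k _ => sum_comm
    _ = _ := sum_comm

theorem N_le_of_dvd {a b : O} (hb : b ≠ 0) (h : a ∣ b) : (N a : ℝ) ≤ N b := by
  exact_mod_cast Nat.le_of_dvd (Vale.Agent.P006.N_pos hb) (N_dvd_N h)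

namespace QSym

variable {χ : O → O → ℂ} (hχ : QSym χ)

include hχ

theorem big_decomp {Y A : ℝ} (hA : 0 < A) {k l : O} (hk : Od k) (hl : Od l)
    (hkY : (N k : ℝ) ≤ Y) (h4 : (4 : O) ∣ k - l) (c₀ K : ℝ) :
    ∃ z : ℂ, ‖z‖ ≤ (if k = l then w6 * (A * (D k).card + 1) else 0) ∧
      big χ K A k l = z + ∑ e ∈ SF Y, (if e ∣ k ∧ e ∣ l then
        ∑ δ ∈ D e, mob (e / δ) * ot χ c₀ K A δ (k / δ) (l / δ) else 0) := by
  classical
  obtain ⟨δ, a, b, hδ, ha, hb, rfl, rfl, hab⟩ := exists_pgcd hk.prim hl.prim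
  have oδ : Od δ := hk.of_dvd hδ (dvd_mul_right _ _)
  have oa : Od a := hk.of_dvd ha (dvd_mul_left _ _)
  have ob : Od b := hl.of_dvd hb (dvd_mul_left _ _)
  have hc : IsCoprime δ (a * b) :=
    (squarefree_mul_iff.1 hk.sqf).1.isCoprime.mul_right (squarefree_mul_iff.1 hl.sqf).1.isCoprime
  have h4' : (4 : O) ∣ a - b := by
    rw [← mul_sub] at h4
    exact oδ.isCoprime_four.dvd_of_dvd_mul_left h4
  refine ⟨(w6 : ℂ) * χ (a * b) 0 *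
    (∑ d ∈ D δ, mob d * ((A / N d / Real.sqrt (N (a * b)) : ℝ) : ℂ) - cop δ 0), ?_, ?_⟩
  · split_ifs with h
    · have hab' : a = b := mul_left_cancel₀ hδ.ne_zero h
      subst hab'
      have ha1 : a = 1 := ha.eq_one_of_isUnit (isCoprime_self.1 hab)
      subst ha1
      rw [mul_one, mul_one, norm_mul, norm_mul, Complex.norm_real, Real.norm_of_nonneg w6_nonneg,
        mul_assoc]
      refine mul_le_mul_of_nonneg_left ?_ w6_nonneg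
      refine (mul_le_of_le_one_left (norm_nonneg _) (hχ.norm_le od_one 0)).trans ?_
      refine (norm_sub_le _ _).trans (add_le_add ?_ (norm_cop_le _ _))
      refine (norm_sum_le _ _).trans ?_
      rw [mul_comm A, ← nsmul_eq_mul, ← sum_const]
      refine sum_le_sum fun d hd => ?_
      rw [mem_D hδ.ne_zero] at hd
      have hd0 : (1 : ℝ) ≤ N d := by exact_mod_cast hd.1.N_pos
      rw [norm_mul, norm_mob, one_mul, Complex.norm_real, N_one, Nat.cast_one, Real.sqrt_one,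
        div_one, Real.norm_of_nonneg (by positivity)]
      exact div_le_self hA.le hd0
    · rw [hχ.at_zero (oa.mul ob hab), mul_zero, zero_mul, norm_zero]
      intro h1
      have ha1 : a = 1 := ha.eq_one_of_isUnit (isUnit_of_dvd_one ⟨b, h1.symm⟩)
      have hb1 : b = 1 := by rw [ha1, one_mul] at h1; exact h1
      exact h (by rw [ha1, hb1])
  · rw [hχ.big_eq oδ oa ob hab hc h4' hA c₀ K]
    congr 1
    have h1 := mob_collapse δ hδ oδ.sqf (fun δ' => ot χ c₀ K A δ' (δ * a / δ') (δ * b / δ'))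
    simp only [mul_div_cancel_left₀ _ hδ.ne_zero] at h1
    have h2 : δ * a ∈ SF Y := mem_SF.2 ⟨hkY, hk.prim, hk.sqf⟩
    rw [← ot, ← h1, D_eq_filter hδ h2 hab, sum_filter]

theorem total_eq {Y A : ℝ} (hA : 0 < A) {𝒦 : Finset O} (h𝒦 : ∀ k ∈ 𝒦, Od k ∧ (N k : ℝ) ≤ Y)
    (h4 : ∀ k ∈ 𝒦, ∀ l ∈ 𝒦, (4 : O) ∣ k - l) (c : O → ℂ) (c₀ K : ℝ) :
    ∃ z : O → O → ℂ,
      (∀ k ∈ 𝒦, ∀ l ∈ 𝒦, ‖z k l‖ ≤ (if k = l then w6 * (A * (D k).card + 1) else 0)) ∧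
      ∑ k ∈ 𝒦, ∑ l ∈ 𝒦, conj (c k) * c l * big χ K A k l =
      (∑ k ∈ 𝒦, ∑ l ∈ 𝒦, conj (c k) * c l * z k l) +
      ∑ e ∈ SF Y, ∑ δ ∈ D e, mob (e / δ) *
        ∑ k ∈ 𝒦.filter (fun k => e ∣ k), ∑ l ∈ 𝒦.filter (fun l => e ∣ l),
          conj (c k) * c l * ot χ c₀ K A δ (k / δ) (l / δ) := by
  classical
  have h1 : ∀ k l : O, ∃ z : ℂ, k ∈ 𝒦 → l ∈ 𝒦 →
      (‖z‖ ≤ (if k = l then w6 * (A * (D k).card + 1) else 0) ∧
      big χ K A k l = z + ∑ e ∈ SF Y, (if e ∣ k ∧ e ∣ l then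
        ∑ δ ∈ D e, mob (e / δ) * ot χ c₀ K A δ (k / δ) (l / δ) else 0)) := by
    intro k l
    by_cases hk : k ∈ 𝒦
    · by_cases hl : l ∈ 𝒦
      · obtain ⟨z, hz⟩ := hχ.big_decomp hA (h𝒦 k hk).1 (h𝒦 l hl).1 (h𝒦 k hk).2 (h4 k hk l hl) c₀ K
        exact ⟨z, fun _ _ => hz⟩
      · exact ⟨0, fun _ h => absurd h hl⟩
    · exact ⟨0, fun h => absurd h hk⟩
  choose z hz using h1
  refine ⟨z, fun k hk l hl => (hz k l hk hl).1, ?_⟩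
  have h2 : ∑ k ∈ 𝒦, ∑ l ∈ 𝒦, conj (c k) * c l * big χ K A k l =
      (∑ k ∈ 𝒦, ∑ l ∈ 𝒦, conj (c k) * c l * z k l) +
      ∑ k ∈ 𝒦, ∑ l ∈ 𝒦, ∑ e ∈ SF Y, (if e ∣ k ∧ e ∣ l then conj (c k) * c l *
        ∑ δ ∈ D e, mob (e / δ) * ot χ c₀ K A δ (k / δ) (l / δ) else 0) := by
    rw [← sum_add_distrib]
    refine sum_congr rfl fun k hk => ?_
    rw [← sum_add_distrib]
    refine sum_congr rfl fun l hl => ?_
    rw [(hz k l hk hl).2, mul_add, mul_sum]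
    congr 1
    refine sum_congr rfl fun e _ => ?_
    split_ifs
    · rfl
    · rw [mul_zero]
  rw [h2]
  congr 1
  rw [sum_pair_filter]
  refine sum_congr rfl fun e _ => ?_
  have h3 : ∑ k ∈ 𝒦.filter (fun k => e ∣ k), ∑ l ∈ 𝒦.filter (fun l => e ∣ l),
      conj (c k) * c l * ∑ δ ∈ D e, mob (e / δ) * ot χ c₀ K A δ (k / δ) (l / δ) =
      ∑ k ∈ 𝒦.filter (fun k => e ∣ k), ∑ l ∈ 𝒦.filter (fun l => e ∣ l), ∑ δ ∈ D e,
        mob (e / δ) * (conj (c k) * c l * ot χ c₀ K A δ (k / δ) (l / δ)) := by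
    refine sum_congr rfl fun k _ => sum_congr rfl fun l _ => ?_
    rw [mul_sum]
    refine sum_congr rfl fun δ _ => ?_
    ring
  rw [h3, sum3_comm]
  refine sum_congr rfl fun δ _ => ?_
  rw [mul_sum]
  refine sum_congr rfl fun k _ => ?_
  rw [mul_sum]

/-- positivity: the arguments with large squarefree kernel -/
theorem lower {K A : ℝ} (hA : 0 < A) (𝒦 S : Finset O) (c : O → ℂ) (h𝒦 : ∀ k ∈ 𝒦, Od k)
    (hS : ∀ v ∈ S, Squarefree v ∧ K < (N v : ℝ) ∧ (N v : ℝ) ≤ A) :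
    ∑ v ∈ S, ‖∑ k ∈ 𝒦, c k * χ k v‖ ^ 2 ≤
      Real.exp b0 * ‖∑ k ∈ 𝒦, ∑ l ∈ 𝒦, conj (c k) * c l * big χ K A k l‖ := by
  classical
  set f : O × O → ℝ := fun p => if K < (N p.1 : ℝ) ∧ Squarefree p.1 ∧ p.2 ≠ 0 then
    ‖∑ k ∈ 𝒦, c k * χ k (p.1 * p.2 ^ 2)‖ ^ 2 * Real.exp (-(b0 * N (p.1 * p.2 ^ 2) / A)) else 0
    with hf
  have hf0 : ∀ p, 0 ≤ f p := fun p => by
    simp only [hf]
    split_ifs
    · positivity
    · exact le_rfl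
  have hg : ∀ k ∈ 𝒦, ∀ l ∈ 𝒦, Summable fun p : O × O =>
      if K < (N p.1 : ℝ) then pr (fun x => χ k x * χ l x * gw A x) p else 0 := by
    intro k hk l hl
    have h1 := (hasSum_pr (summable_gw hA (ψ := fun x => χ k x * χ l x) fun x => by
      rw [norm_mul]
      exact mul_le_one₀ (hχ.norm_le (h𝒦 k hk) x) (norm_nonneg _)
        (hχ.norm_le (h𝒦 l hl) x))).summable.norm
    refine Summable.of_norm_bounded h1 fun p => ?_
    split_ifs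
    · exact le_rfl
    · rw [norm_zero]; exact norm_nonneg _
  have h1 : HasSum (fun p => (f p : ℂ)) (∑ k ∈ 𝒦, ∑ l ∈ 𝒦, conj (c k) * c l * big χ K A k l) := by
    have h2 := hasSum_sum fun k hk => hasSum_sum fun l hl =>
      ((hg k hk l hl).hasSum.mul_left (conj (c k) * c l))
    refine h2.congr_fun fun p => ?_
    simp only [hf, pr]
    by_cases hp : K < (N p.1 : ℝ) ∧ Squarefree p.1 ∧ p.2 ≠ 0
    · simp only [if_pos hp, if_pos hp.1, if_pos hp.2]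
      rw [Complex.ofReal_mul, Complex.ofReal_pow, ← Complex.conj_mul', map_sum, sum_mul_sum,
        sum_mul]
      refine sum_congr rfl fun k hk => ?_
      rw [sum_mul]
      refine sum_congr rfl fun l _ => ?_
      rw [map_mul, hχ.conj_eq (h𝒦 k hk), gw]; ring
    · rw [if_neg hp, Complex.ofReal_zero]
      refine (sum_eq_zero fun k _ => sum_eq_zero fun l _ => ?_).symm
      split_ifs with h3 h4
      · exact absurd ⟨h3, h4⟩ hp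
      · exact mul_zero _
      · exact mul_zero _
  have h2 : HasSum f (∑ k ∈ 𝒦, ∑ l ∈ 𝒦, conj (c k) * c l * big χ K A k l).re := by
    simpa using Complex.reCLM.hasSum h1
  have h3 := sum_le_hasSum (S.image fun v => (v, (1 : O))) (fun p _ => hf0 p) h2
  rw [sum_image fun x _ y _ h => (Prod.mk.inj h).1] at h3
  refine le_trans ?_ (mul_le_mul_of_nonneg_left (h3.trans (Complex.re_le_norm _))
    (Real.exp_pos _).le)
  rw [mul_sum]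
  refine sum_le_sum fun v hv => ?_
  obtain ⟨s1, s2, s3⟩ := hS v hv
  simp only [hf]
  rw [if_pos ⟨s2, s1, one_ne_zero⟩, one_pow, mul_one]
  have h4 : 1 ≤ Real.exp b0 * Real.exp (-(b0 * N v / A)) := by
    rw [← Real.exp_add]
    apply Real.one_le_exp
    have : b0 * N v / A ≤ b0 := by
      rw [div_le_iff₀ hA]
      exact mul_le_mul_of_nonneg_left s3 b0_pos.le
    linarith
  nlinarith [sq_nonneg ‖∑ k ∈ 𝒦, c k * χ k v‖]

/-- bound for one `(e, δ)` -/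
theorem ot_bound {c₀ η : ℝ} (hη : 0 < η) (hη4 : η ≤ 1 / 4) (hG1 : MelRep (Rm c₀) η)
    (hG2 : MelRep (Rm c₀) (1 / 2 - η)) (hG3 : MelRep th 5) : ∃ C : ℝ, 0 < C ∧
    ∀ (T : Finset O) (c : O → ℂ) (δ : O) (C₀ β γ ξ A K Y τ : ℝ),
      HypC χ C₀ β γ ξ → 0 ≤ C₀ → 0 ≤ β → β ≤ 2 → 0 ≤ γ → 1 ≤ ξ → ξ ≤ 2 → 1 ≤ A → 1 ≤ K →
      Y ^ 2 ≤ K * A → 1 ≤ τ → Prim δ → (N δ : ℝ) ≤ Y → Squarefree δ →
      (∀ k ∈ T, Od k ∧ (N k : ℝ) ≤ Y ∧ Y < 2 * N k ∧ δ ∣ k) →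
      (∀ e ∈ SF Y, ((D e).card : ℝ) ≤ τ) →
      ‖∑ k ∈ T, ∑ l ∈ T, conj (c k) * c l * ot χ c₀ K A δ (k / δ) (l / δ)‖ ≤
        C * (τ ^ 4 * (K * A) ^ (2 * η) * (C₀ * K ^ β * Y ^ γ) *
          (A + Y + Real.sqrt A * K ^ (ξ - 1 / 2) + K ^ ξ)) * ∑ k ∈ T, ‖c k‖ ^ 2 := by
  obtain ⟨C1, hC1, h1⟩ := hχ.dual_bound hη hη4 hG1 hG2 hG3
  obtain ⟨C2, hC2, h2⟩ := hχ.prim_bound hη hG1
  refine ⟨C1 + C2, by positivity, ?_⟩
  intro T c δ C₀ β γ ξ A K Y τ hH hC₀ hβ hβ2 hγ hξ hξ2 hA hK hY hτ hδ hδY sδ hT hD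
  have pδ : (1 : ℝ) ≤ N δ := by exact_mod_cast hδ.N_pos
  have hY1 : 1 ≤ Y := pδ.trans hδY
  have hR : 1 ≤ Y / N δ := (one_le_div (by linarith)).2 hδY
  have hRY : Y / N δ ≤ Y := div_le_self (by linarith) pδ
  have hA0 : 0 < A := by linarith
  have hK0 : 0 < K := by linarith
  have ht : Set.InjOn (fun k => k / δ) T := by
    intro k hk l hl h
    obtain ⟨a, rfl⟩ := (hT k hk).2.2.2
    obtain ⟨b, rfl⟩ := (hT l hl).2.2.2
    simp only [mul_div_cancel_left₀ _ hδ.ne_zero] at h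
    rw [h]
  have hT' : ∀ k ∈ T, Od (k / δ) ∧ (N (k / δ) : ℝ) ≤ Y / N δ ∧ Y / N δ / 2 < N (k / δ) := by
    intro k hk
    obtain ⟨o, l1, l2, a, rfl⟩ := hT k hk
    rw [N_mul, Nat.cast_mul] at l1 l2
    rw [mul_div_cancel_left₀ _ hδ.ne_zero]
    refine ⟨o.of_dvd (hδ.of_mul_left o.prim) (dvd_mul_left _ _), ?_, ?_⟩
    · rw [le_div_iff₀ (by linarith)]; linarith
    · rw [div_div, div_lt_iff₀ (by linarith)]; linarith
  have hτ' : ∀ k ∈ T, ((D (k / δ)).card : ℝ) ≤ τ := fun k hk =>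
    hD _ (mem_SF.2 ⟨(hT' k hk).2.1.trans hRY, (hT' k hk).1.prim, (hT' k hk).1.sqf⟩)
  have hτδ : ((D δ).card : ℝ) ≤ τ := hD _ (mem_SF.2 ⟨hδY, hδ, sδ⟩)
  have a2 := h2 T (fun k => k / δ) c δ A K (Y / N δ) _ τ (hH K _ hK hR) (by positivity) hA0 ht
    (fun k hk => ⟨(hT' k hk).1, (hT' k hk).2.1⟩) hδ.ne_zero hτ'
  have a1 : ∀ d ∈ D δ, ‖∑ k ∈ T, ∑ l ∈ T, conj (c k) * c l *
      ∑' v : O, dualT χ c₀ K A δ d (k / δ) (l / δ) v‖ ≤
      C1 * ((D δ).card * ((K * A) ^ (2 * η) * (τ ^ 2 * (C₀ * K ^ β * (Y / N δ) ^ γ *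
          (A + Real.sqrt A * K ^ (ξ - 1 / 2)) * ∑ k ∈ T, ‖c k‖ ^ 2)))) := fun d hd => by
    rw [mem_D hδ.ne_zero] at hd
    have pd := N_le_of_dvd hδ.ne_zero hd.2
    refine h1 T (fun k => k / δ) c δ d C₀ β γ ξ A K (Y / N δ) τ hH hC₀ hβ hβ2 hξ hξ2 hA hK hR
      ?_ ht hT' hδ.ne_zero hd.1.ne_zero hτ'
    calc (Y / N δ) ^ 2 * (N d : ℝ) ^ 2 ≤ (Y / N δ) ^ 2 * (N δ : ℝ) ^ 2 := by gcongr
      _ = Y ^ 2 := by field_simp
      _ ≤ _ := hY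
  have e1 : ∑ k ∈ T, ∑ l ∈ T, conj (c k) * c l * ot χ c₀ K A δ (k / δ) (l / δ) =
      ∑ d ∈ D δ, ∑ k ∈ T, ∑ l ∈ T, conj (c k) * c l *
        ∑' v : O, dualT χ c₀ K A δ d (k / δ) (l / δ) v -
      ∑ k ∈ T, ∑ l ∈ T, conj (c k) * c l * ∑ v ∈ Sq K, primT χ c₀ A δ (k / δ) (l / δ) v := by
    rw [← sum3_comm, ← sum_sub_distrib]
    refine sum_congr rfl fun k _ => ?_
    rw [← sum_sub_distrib]
    refine sum_congr rfl fun l _ => ?_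
    rw [ot, mul_sub, mul_sum]
  rw [e1]
  refine (norm_sub_le _ _).trans ?_
  have a3 := (norm_sum_le _ _).trans (sum_le_sum a1)
  rw [sum_const, nsmul_eq_mul] at a3
  refine (add_le_add a3 a2).trans ?_
  have hS0 : 0 ≤ ∑ k ∈ T, ‖c k‖ ^ 2 := by positivity
  generalize ∑ k ∈ T, ‖c k‖ ^ 2 = Sc at hS0 ⊢
  have ht0 : 0 ≤ ((D δ).card : ℝ) := by positivity
  generalize ((D δ).card : ℝ) = t at hτδ ht0 ⊢
  have n1 : (Y / N δ) ^ γ ≤ Y ^ γ := Real.rpow_le_rpow (by linarith) hRY hγ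
  have n2 : A ^ η ≤ (K * A) ^ (2 * η) :=
    (Real.rpow_le_rpow hA0.le (le_mul_of_one_le_left hA0.le hK) hη.le).trans
      (Real.rpow_le_rpow_of_exponent_le (one_le_mul_of_one_le_of_one_le hK hA) (by linarith))
  have n3 : A + Real.sqrt A * K ^ (ξ - 1 / 2) ≤
      A + Y + Real.sqrt A * K ^ (ξ - 1 / 2) + K ^ ξ := by
    have : 0 ≤ K ^ ξ := by positivity
    linarith
  have n4 : K ^ ξ + Y / N δ ≤ A + Y + Real.sqrt A * K ^ (ξ - 1 / 2) + K ^ ξ := by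
    have : 0 ≤ Real.sqrt A * K ^ (ξ - 1 / 2) := by positivity
    linarith
  have n5 : t ≤ τ * τ := hτδ.trans (le_mul_of_one_le_left (by linarith) hτ)
  have hE : 0 ≤ A + Real.sqrt A * K ^ (ξ - 1 / 2) := by positivity
  have hE' : 0 ≤ K ^ ξ + Y / N δ := by positivity
  generalize A + Y + Real.sqrt A * K ^ (ξ - 1 / 2) + K ^ ξ = E at n3 n4 ⊢
  generalize A + Real.sqrt A * K ^ (ξ - 1 / 2) = E₁ at n3 hE ⊢
  generalize K ^ ξ + Y / N δ = E₂ at n4 hE' ⊢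
  calc t * (C1 * (t * ((K * A) ^ (2 * η) * (τ ^ 2 * (C₀ * K ^ β * (Y / N δ) ^ γ * E₁ * Sc))))) +
        C2 * (t * (A ^ η * (τ ^ 2 * (C₀ * K ^ β * (Y / N δ) ^ γ * E₂ * Sc))))
      ≤ τ * (C1 * (τ * ((K * A) ^ (2 * η) * (τ ^ 2 * (C₀ * K ^ β * Y ^ γ * E * Sc))))) +
        C2 * (τ * τ * ((K * A) ^ (2 * η) * (τ ^ 2 * (C₀ * K ^ β * Y ^ γ * E * Sc)))) := by
        gcongr
    _ = _ := by ring

/-- the step with explicit parameters -/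
theorem core {c₀ η : ℝ} (hη : 0 < η) (hη4 : η ≤ 1 / 4) (hG1 : MelRep (Rm c₀) η)
    (hG2 : MelRep (Rm c₀) (1 / 2 - η)) (hG3 : MelRep th 5) : ∃ C : ℝ, 0 < C ∧
    ∀ (C₀ β γ ξ A K Y τ : ℝ),
      HypC χ C₀ β γ ξ → 1 ≤ C₀ → 0 ≤ β → β ≤ 2 → 0 ≤ γ → 1 ≤ ξ → ξ ≤ 2 → 1 ≤ A → 1 ≤ K → 1 ≤ Y →
      Y ^ 2 ≤ K * A → 1 ≤ τ → (∀ e ∈ SF Y, ((D e).card : ℝ) ≤ τ) →
      LSc χ A Y (C * (τ ^ 6 * (K * A) ^ (2 * η) * (C₀ * K ^ β * Y ^ γ) *
          (A + Y + Real.sqrt A * K ^ (ξ - 1 / 2) + K ^ ξ))) := by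
  classical
  obtain ⟨C1, hC1, h1⟩ := hχ.ot_bound hη hη4 hG1 hG2 hG3
  have hw := w6_nonneg
  refine ⟨1 + Real.exp b0 * (2 * w6 + C1), by positivity, ?_⟩
  intro C₀ β γ ξ A K Y τ hH hC₀ hβ hβ2 hγ hξ hξ2 hA hK hY1 hY hτ hD 𝒦 S c h𝒦 h4 hS
  have hA0 : 0 < A := by linarith
  have hK0 : 0 < K := by linarith
  have hY0 : 0 < Y := by linarith
  have hτ0 : 0 < τ := by linarith
  have hSF : ∀ k ∈ 𝒦, k ∈ SF Y := fun k hk =>
    mem_SF.2 ⟨(h𝒦 k hk).2.1, (h𝒦 k hk).1.prim, (h𝒦 k hk).1.sqf⟩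
  obtain ⟨z, hz, htot⟩ := hχ.total_eq hA0 (fun k hk => ⟨(h𝒦 k hk).1, (h𝒦 k hk).2.1⟩) h4 c c₀ K
  have hlow := hχ.lower (K := K) hA0 𝒦 (S.filter fun v => ¬ (N v : ℝ) ≤ K) c
    (fun k hk => (h𝒦 k hk).1) (fun v hv => by
      rw [mem_filter] at hv
      exact ⟨(hS v hv.1).1, not_le.1 hv.2, (hS v hv.1).2⟩)
  have hsm := hH K Y hK hY1 𝒦 (S.filter fun v => (N v : ℝ) ≤ K) c
    (fun k hk => ⟨(h𝒦 k hk).1, (h𝒦 k hk).2.1⟩) (fun v hv => by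
      rw [mem_filter] at hv
      exact ⟨(hS v hv.1).1, hv.2⟩)
  rw [← sum_filter_add_sum_filter_not S fun v => (N v : ℝ) ≤ K]
  have hA1 : ‖∑ k ∈ 𝒦, ∑ l ∈ 𝒦, conj (c k) * c l * z k l‖ ≤
      w6 * (A * τ + 1) * ∑ k ∈ 𝒦, ‖c k‖ ^ 2 := by
    calc ‖∑ k ∈ 𝒦, ∑ l ∈ 𝒦, conj (c k) * c l * z k l‖
        ≤ ∑ k ∈ 𝒦, ∑ l ∈ 𝒦, ‖conj (c k) * c l * z k l‖ :=
          (norm_sum_le _ _).trans (sum_le_sum fun k _ => norm_sum_le _ _)
      _ ≤ ∑ k ∈ 𝒦, ∑ l ∈ 𝒦,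
            (if k = l then ‖c k‖ ^ 2 * (w6 * (A * (D k).card + 1)) else 0) := by
          refine sum_le_sum fun k hk => sum_le_sum fun l hl => ?_
          rw [norm_mul, norm_mul, Complex.norm_conj]
          have h3 := hz k hk l hl
          split_ifs at h3 ⊢ with hkl
          · subst hkl
            rw [← pow_two]
            gcongr
          · have : ‖z k l‖ = 0 := le_antisymm h3 (norm_nonneg _)
            rw [this, mul_zero]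
      _ = ∑ k ∈ 𝒦, ‖c k‖ ^ 2 * (w6 * (A * (D k).card + 1)) := by
          refine sum_congr rfl fun k hk => ?_
          rw [sum_ite_eq, if_pos hk]
      _ ≤ ∑ k ∈ 𝒦, ‖c k‖ ^ 2 * (w6 * (A * τ + 1)) := by
          refine sum_le_sum fun k hk => ?_
          have := hD k (hSF k hk)
          gcongr
      _ = _ := by rw [← sum_mul]; ring
  have hZ0 : 0 ≤ τ ^ 4 * (K * A) ^ (2 * η) * (C₀ * K ^ β * Y ^ γ) *
      (A + Y + Real.sqrt A * K ^ (ξ - 1 / 2) + K ^ ξ) := by positivity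
  have hA2 : ‖∑ e ∈ SF Y, ∑ δ ∈ D e, mob (e / δ) *
        ∑ k ∈ 𝒦.filter (fun k => e ∣ k), ∑ l ∈ 𝒦.filter (fun l => e ∣ l),
          conj (c k) * c l * ot χ c₀ K A δ (k / δ) (l / δ)‖ ≤
      τ * (C1 * (τ ^ 4 * (K * A) ^ (2 * η) * (C₀ * K ^ β * Y ^ γ) *
          (A + Y + Real.sqrt A * K ^ (ξ - 1 / 2) + K ^ ξ))) * (τ * ∑ k ∈ 𝒦, ‖c k‖ ^ 2) := by
    have hb : ∀ e ∈ SF Y, ∀ δ ∈ D e, ‖mob (e / δ) *
        ∑ k ∈ 𝒦.filter (fun k => e ∣ k), ∑ l ∈ 𝒦.filter (fun l => e ∣ l),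
          conj (c k) * c l * ot χ c₀ K A δ (k / δ) (l / δ)‖ ≤
        C1 * (τ ^ 4 * (K * A) ^ (2 * η) * (C₀ * K ^ β * Y ^ γ) *
          (A + Y + Real.sqrt A * K ^ (ξ - 1 / 2) + K ^ ξ)) *
          ∑ k ∈ 𝒦.filter (fun k => e ∣ k), ‖c k‖ ^ 2 := by
      intro e he δ hδ
      rw [mem_SF] at he
      rw [mem_D he.2.1.ne_zero] at hδ
      rw [norm_mul, norm_mob, one_mul]
      refine h1 _ c δ C₀ β γ ξ A K Y τ hH (by linarith) hβ hβ2 hγ hξ hξ2 hA hK hY hτ hδ.1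
        ((N_le_of_dvd he.2.1.ne_zero hδ.2).trans he.1) (he.2.2.squarefree_of_dvd hδ.2)
        (fun k hk => ?_) hD
      rw [mem_filter] at hk
      exact ⟨(h𝒦 k hk.1).1, (h𝒦 k hk.1).2.1, (h𝒦 k hk.1).2.2, hδ.2.trans hk.2⟩
    have hcov : ∑ e ∈ SF Y, ∑ k ∈ 𝒦.filter (fun k => e ∣ k), ‖c k‖ ^ 2 ≤
        τ * ∑ k ∈ 𝒦, ‖c k‖ ^ 2 := by
      simp only [sum_filter]
      rw [sum_comm, mul_sum]
      refine sum_le_sum fun k hk => ?_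
      rw [← sum_filter, sum_const, nsmul_eq_mul]
      refine mul_le_mul_of_nonneg_right (le_trans ?_ (hD k (hSF k hk))) (by positivity)
      exact_mod_cast card_le_card fun e he => by
        rw [mem_filter, mem_SF] at he
        exact (mem_D (h𝒦 k hk).1.ne_zero).2 ⟨he.1.2.1, he.2⟩
    generalize τ ^ 4 * (K * A) ^ (2 * η) * (C₀ * K ^ β * Y ^ γ) *
      (A + Y + Real.sqrt A * K ^ (ξ - 1 / 2) + K ^ ξ) = Z at hZ0 hb ⊢
    calc _ ≤ ∑ e ∈ SF Y, τ * (C1 * Z * ∑ k ∈ 𝒦.filter (fun k => e ∣ k), ‖c k‖ ^ 2) := by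
          refine (norm_sum_le _ _).trans (sum_le_sum fun e he => ?_)
          refine (norm_sum_le _ _).trans ((sum_le_sum (hb e he)).trans ?_)
          rw [sum_const, nsmul_eq_mul]
          exact mul_le_mul_of_nonneg_right (hD e he) (by positivity)
      _ = τ * (C1 * Z) * ∑ e ∈ SF Y, ∑ k ∈ 𝒦.filter (fun k => e ∣ k), ‖c k‖ ^ 2 := by
          rw [mul_sum]
          exact sum_congr rfl fun e _ => by ring
      _ ≤ _ := by gcongr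
  have hbig := (norm_add_le _ _).trans (add_le_add hA1 hA2)
  rw [← htot] at hbig
  refine (add_le_add hsm (hlow.trans (mul_le_mul_of_nonneg_left hbig (Real.exp_pos _).le))).trans ?_
  have hS0 : 0 ≤ ∑ k ∈ 𝒦, ‖c k‖ ^ 2 := by positivity
  generalize ∑ k ∈ 𝒦, ‖c k‖ ^ 2 = Sc at hS0 ⊢
  have n1 : 1 ≤ (K * A) ^ (2 * η) :=
    Real.one_le_rpow (one_le_mul_of_one_le_of_one_le hK hA) (by linarith)
  have n2 : 1 ≤ C₀ * K ^ β * Y ^ γ := one_le_mul_of_one_le_of_one_le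
    (one_le_mul_of_one_le_of_one_le hC₀ (Real.one_le_rpow hK hβ)) (Real.one_le_rpow hY1 hγ)
  have n3 : A ≤ A + Y + Real.sqrt A * K ^ (ξ - 1 / 2) + K ^ ξ := by
    have : 0 ≤ K ^ ξ := by positivity
    have : 0 ≤ Real.sqrt A * K ^ (ξ - 1 / 2) := by positivity
    linarith
  have n4 : K ^ ξ + Y ≤ A + Y + Real.sqrt A * K ^ (ξ - 1 / 2) + K ^ ξ := by
    have : 0 ≤ Real.sqrt A * K ^ (ξ - 1 / 2) := by positivity
    linarith
  have hE' : 0 ≤ K ^ ξ + Y := by positivity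
  generalize A + Y + Real.sqrt A * K ^ (ξ - 1 / 2) + K ^ ξ = E at n3 n4 ⊢
  generalize K ^ ξ + Y = E₂ at n4 hE' ⊢
  generalize C₀ * K ^ β * Y ^ γ = B at n2 ⊢
  generalize (K * A) ^ (2 * η) = P at n1 ⊢
  have n5 : 1 ≤ τ ^ 6 := one_le_pow₀ hτ
  have n6 : τ ≤ τ ^ 6 := le_self_pow₀ hτ (by norm_num)
  have n7 : A * τ + 1 ≤ 2 * (τ ^ 6 * P * B * E) := by
    have m1 : A * τ ≤ τ ^ 6 * P * B * E := by
      calc A * τ = τ * 1 * 1 * A := by ring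
        _ ≤ _ := by gcongr
    have m2 : 1 ≤ A * τ := one_le_mul_of_one_le_of_one_le hA hτ
    linarith
  have n8 : B * E₂ ≤ τ ^ 6 * P * B * E := by
    calc B * E₂ = 1 * 1 * B * E₂ := by ring
      _ ≤ _ := by gcongr
  calc B * E₂ * Sc + Real.exp b0 * (w6 * (A * τ + 1) * Sc +
        τ * (C1 * (τ ^ 4 * P * B * E)) * (τ * Sc))
      ≤ τ ^ 6 * P * B * E * Sc + Real.exp b0 * (w6 * (2 * (τ ^ 6 * P * B * E)) * Sc +
        τ * (C1 * (τ ^ 4 * P * B * E)) * (τ * Sc)) := by gcongr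
    _ = _ := by ring

/-- **the Poisson step** for one dyadic range and one class modulo `4` -/
theorem stepC (hM : ThMellin) {ξ : ℝ} (hξ : 1 ≤ ξ) (hξ2 : ξ ≤ 2) (hH : HypD χ ξ) :
    StepC χ ξ := by
  intro ε hε
  obtain ⟨hM1, c₀, hM2⟩ := hM
  set η : ℝ := min (ε / 13) (1 / 4) with hη
  have hη0 : 0 < η := lt_min (by linarith) (by norm_num)
  have hη4 : η ≤ 1 / 4 := min_le_right _ _
  have hη13 : 13 * η ≤ ε := by have := min_le_left (ε / 13) (1 / 4); linarith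
  clear_value η
  obtain ⟨C1, hC1, h1⟩ := hχ.core (c₀ := c₀) hη0 hη4 (hM2 η hη0 (by linarith))
    (hM2 _ (by linarith) (by linarith)) (hM1 5 (by norm_num))
  obtain ⟨C2, hC2, h2⟩ := card_D_le hη0
  obtain ⟨C₀, hC₀, h0⟩ := hH η hη0
  refine ⟨C1 * C2 ^ 6 * max C₀ 1, by positivity, fun X Y hX hY => ?_⟩
  have hX0 : 0 < X := by linarith
  have hY0 : 0 < Y := by linarith
  have hK : 1 ≤ max 1 (Y ^ 2 / X) := le_max_left _ _
  have hK2 : Y ^ 2 ≤ max 1 (Y ^ 2 / X) * X := by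
    rw [← div_le_iff₀ hX0]; exact le_max_right _ _
  have hK3 : max 1 (Y ^ 2 / X) ≤ (X * Y) ^ 2 := by
    have m1 : Y ^ 2 ≤ (X * Y) ^ 2 := by gcongr; exact le_mul_of_one_le_left hY0.le hX
    exact max_le ((one_le_pow₀ hY).trans m1) ((div_le_self (by positivity) hX).trans m1)
  have hK4 : max 1 (Y ^ 2 / X) * X ≤ (X * Y) ^ 2 := by
    have m1 : max 1 (Y ^ 2 / X) ≤ Y ^ 2 :=
      max_le (one_le_pow₀ hY) (div_le_self (by positivity) hX)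
    calc max 1 (Y ^ 2 / X) * X ≤ Y ^ 2 * X := by gcongr
      _ = Y ^ 2 * X * 1 := by ring
      _ ≤ Y ^ 2 * X * X := by gcongr
      _ = _ := by ring
  generalize max 1 (Y ^ 2 / X) = K at hK hK2 hK3 hK4 ⊢
  have hK0 : 0 < K := by linarith
  have hτ : 1 ≤ C2 * Y ^ η := one_le_mul_of_one_le_of_one_le hC2 (Real.one_le_rpow hY hη0.le)
  have h3 := h1 (max C₀ 1) η η ξ X K Y (C2 * Y ^ η) (fun X' Y' hX' hY' => by
      refine LSq.mono (h0 X' Y' hX' hY') ?_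
      rw [Real.mul_rpow (by linarith) (by linarith), ← mul_assoc]
      have : 0 ≤ X' ^ ξ + Y' := by positivity
      gcongr
      exact le_max_left _ _) (le_max_right _ _) hη0.le (by linarith) hη0.le hξ hξ2 hX hK hY hK2 hτ
    (fun e he => by
      rw [mem_SF] at he
      refine (h2 e he.2.1 he.2.2).trans ?_
      gcongr
      exact he.1)
  intro T S c hT h4 hS
  refine (h3 T S c hT h4 hS).trans ?_
  have hXY : 1 ≤ X * Y := one_le_mul_of_one_le_of_one_le hX hY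
  have hP : 1 ≤ (X * Y) ^ η := Real.one_le_rpow hXY hη0.le
  have e2 : ((X * Y) ^ 2) ^ η = ((X * Y) ^ η) ^ 2 := by
    rw [← Real.rpow_natCast, ← Real.rpow_natCast, ← Real.rpow_mul (by positivity),
      ← Real.rpow_mul (by positivity), mul_comm η]
  have m1 : Y ^ η ≤ (X * Y) ^ η :=
    Real.rpow_le_rpow hY0.le (le_mul_of_one_le_left hY0.le hX) hη0.le
  have m2 : K ^ η ≤ ((X * Y) ^ η) ^ 2 := e2 ▸ Real.rpow_le_rpow hK0.le hK3 hη0.le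
  have m3 : (K * X) ^ (2 * η) ≤ ((X * Y) ^ η) ^ 4 := by
    have m4 : (K * X) ^ η ≤ ((X * Y) ^ η) ^ 2 := e2 ▸ Real.rpow_le_rpow (by positivity) hK4 hη0.le
    calc (K * X) ^ (2 * η) = ((K * X) ^ η) ^ 2 := by
          rw [← Real.rpow_natCast, ← Real.rpow_mul (by positivity), mul_comm η]; norm_num
      _ ≤ (((X * Y) ^ η) ^ 2) ^ 2 := by gcongr
      _ = _ := by ring
  have m5 : ((X * Y) ^ η) ^ 13 ≤ (X * Y) ^ ε := by
    rw [← Real.rpow_natCast, ← Real.rpow_mul (by positivity)]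
    exact Real.rpow_le_rpow_of_exponent_le hXY (by push_cast; linarith)
  have hE : 0 ≤ X + Y + Real.sqrt X * K ^ (ξ - 1 / 2) + K ^ ξ := by positivity
  generalize X + Y + Real.sqrt X * K ^ (ξ - 1 / 2) + K ^ ξ = E at hE ⊢
  refine mul_le_mul_of_nonneg_right ?_ (by positivity)
  calc C1 * ((C2 * Y ^ η) ^ 6 * (K * X) ^ (2 * η) * (max C₀ 1 * K ^ η * Y ^ η) * E)
      ≤ C1 * ((C2 * (X * Y) ^ η) ^ 6 * ((X * Y) ^ η) ^ 4 *
        (max C₀ 1 * ((X * Y) ^ η) ^ 2 * (X * Y) ^ η) * E) := by gcongr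
    _ = C1 * C2 ^ 6 * max C₀ 1 * ((X * Y) ^ η) ^ 13 * E := by ring
    _ ≤ _ := by gcongr

end QSym

end Vale.Agent.P026Z.QLS
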