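import Vale.Agent.P026Z.QLS.ThetaA
import Vale.Agent.P026Z.QLS.Defs

/-!
P026, block QLS: the two Mellin representations of `th s = ∑_{u ≠ 0} exp (-s N(u)²)`.
-/

open MeasureTheory Filter Topology Function Set
open scoped Real Nat

namespace Vale.Agent.P026Z.QLS

open Vale.Agent.P006 Vale.Agent.P006.PO Vale.Agent.P006.PS

/-! ### a general Mellin representation -/

theorem exp_neg_abs_le {δ : ℝ} (hδ : 0 < δ) (v : ℝ) :
    Real.exp (-(δ * |v|)) ≤ (1 + 2 / δ ^ 2) * (1 + v ^ 2)⁻¹ := by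
  rw [← div_eq_mul_inv, le_div_iff₀ (by positivity)]
  have h0 : 0 ≤ δ * |v| := by positivity
  have h2 : 1 + δ * |v| + (δ * |v|) ^ 2 / 2 ≤ Real.exp (δ * |v|) :=
    Real.quadratic_le_exp_of_nonneg h0
  have h5 : v ^ 2 = (2 / δ ^ 2) * ((δ * |v|) ^ 2 / 2) := by
    rw [mul_pow, sq_abs]; field_simp
  have h6 : 0 < 2 / δ ^ 2 := by positivity
  have h7 : (1 : ℝ) ≤ Real.exp (δ * |v|) := by nlinarith [sq_nonneg (δ * |v|)]
  have h8 : (δ * |v|) ^ 2 / 2 ≤ Real.exp (δ * |v|) := by nlinarith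
  have h3 : 1 + v ^ 2 ≤ (1 + 2 / δ ^ 2) * Real.exp (δ * |v|) := by
    calc 1 + v ^ 2 = 1 + (2 / δ ^ 2) * ((δ * |v|) ^ 2 / 2) := by rw [← h5]
      _ ≤ Real.exp (δ * |v|) + (2 / δ ^ 2) * Real.exp (δ * |v|) :=
          add_le_add h7 (mul_le_mul_of_nonneg_left h8 h6.le)
      _ = _ := by ring
  calc Real.exp (-(δ * |v|)) * (1 + v ^ 2)
      ≤ Real.exp (-(δ * |v|)) * ((1 + 2 / δ ^ 2) * Real.exp (δ * |v|)) := by gcongr
    _ = _ := by rw [mul_left_comm, ← Real.exp_add]; simp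

/-- two-sided power bounds give integrability in the logarithmic variable -/
theorem integrable_of_bounds {G : ℝ → ℝ} (hG : Continuous fun v => G (Real.exp v))
    {a b σ C : ℝ} (ha : a < σ) (hb : σ < b)
    (h1 : ∀ s, 0 < s → s ≤ 1 → |G s| ≤ C * s ^ (-a))
    (h2 : ∀ s, 1 ≤ s → |G s| ≤ C * s ^ (-b)) :
    Integrable fun v => Real.exp (σ * v) * G (Real.exp v) := by
  have hC : 0 ≤ C := by
    have := h2 1 le_rfl
    rw [Real.one_rpow, mul_one] at this
    exact (abs_nonneg _).trans this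
  set δ : ℝ := min (σ - a) (b - σ) with hδ
  have hδ0 : 0 < δ := lt_min (by linarith) (by linarith)
  have hδ1 : δ ≤ σ - a := min_le_left _ _
  have hδ2 : δ ≤ b - σ := min_le_right _ _
  refine Integrable.mono' (integrable_inv_one_add_sq.const_mul (C * (1 + 2 / δ ^ 2)))
    (Continuous.aestronglyMeasurable
      ((Real.continuous_exp.comp (continuous_const.mul continuous_id)).mul hG))
    (Eventually.of_forall fun v => ?_)
  rw [norm_mul, Real.norm_of_nonneg (Real.exp_pos _).le, Real.norm_eq_abs, mul_assoc]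
  have key : Real.exp (σ * v) * |G (Real.exp v)| ≤ C * Real.exp (-(δ * |v|)) := by
    rcases le_total v 0 with hv | hv
    · have h3 := h1 (Real.exp v) (Real.exp_pos v) (Real.exp_le_one_iff.2 hv)
      rw [← Real.exp_mul] at h3
      calc Real.exp (σ * v) * |G (Real.exp v)| ≤ Real.exp (σ * v) * (C * Real.exp (v * -a)) := by
            gcongr
        _ = C * Real.exp (σ * v + v * -a) := by rw [Real.exp_add]; ring
        _ ≤ _ := by
            gcongr
            rw [abs_of_nonpos hv]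
            nlinarith
    · have h3 := h2 (Real.exp v) (Real.one_le_exp hv)
      rw [← Real.exp_mul] at h3
      calc Real.exp (σ * v) * |G (Real.exp v)| ≤ Real.exp (σ * v) * (C * Real.exp (v * -b)) := by
            gcongr
        _ = C * Real.exp (σ * v + v * -b) := by rw [Real.exp_add]; ring
        _ ≤ _ := by
            gcongr
            rw [abs_of_nonneg hv]
            nlinarith
  exact key.trans (mul_le_mul_of_nonneg_left (exp_neg_abs_le hδ0 v) hC)

theorem melRep_of {F0 F1 F2 : ℝ → ℝ} {σ : ℝ}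
    (d0 : ∀ v, HasDerivAt (fun v => F0 (Real.exp v)) (-F1 (Real.exp v)) v)
    (d1 : ∀ v, HasDerivAt (fun v => F1 (Real.exp v)) (F1 (Real.exp v) - F2 (Real.exp v)) v)
    (I0 : Integrable fun v => Real.exp (σ * v) * F0 (Real.exp v))
    (I1 : Integrable fun v => Real.exp (σ * v) * F1 (Real.exp v))
    (I2 : Integrable fun v => Real.exp (σ * v) * F2 (Real.exp v)) : MelRep F0 σ := by
  have he : ∀ v, HasDerivAt (fun v => Real.exp (σ * v)) (Real.exp (σ * v) * σ) v := by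
    intro v
    have h := ((hasDerivAt_id v).const_mul σ).exp
    simpa using h
  have hd : ∀ v, HasDerivAt (fun v => Real.exp (σ * v) * F0 (Real.exp v))
      (σ * (Real.exp (σ * v) * F0 (Real.exp v)) - Real.exp (σ * v) * F1 (Real.exp v)) v := by
    intro v
    refine ((he v).mul (d0 v)).congr_deriv ?_
    ring
  have hd' : ∀ v, HasDerivAt (fun v => Real.exp (σ * v) * F1 (Real.exp v))
      ((σ + 1) * (Real.exp (σ * v) * F1 (Real.exp v)) - Real.exp (σ * v) * F2 (Real.exp v)) v := by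
    intro v
    refine ((he v).mul (d1 v)).congr_deriv ?_
    ring
  have hd1 : ∀ v, HasDerivAt
      (fun v => σ * (Real.exp (σ * v) * F0 (Real.exp v)) - Real.exp (σ * v) * F1 (Real.exp v))
      (σ * (σ * (Real.exp (σ * v) * F0 (Real.exp v)) - Real.exp (σ * v) * F1 (Real.exp v)) -
        ((σ + 1) * (Real.exp (σ * v) * F1 (Real.exp v)) -
          Real.exp (σ * v) * F2 (Real.exp v))) v :=
    fun v => ((hd v).const_mul σ).sub (hd' v)
  have J1 : Integrable
      (fun v => σ * (Real.exp (σ * v) * F0 (Real.exp v)) - Real.exp (σ * v) * F1 (Real.exp v)) :=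
    (I0.const_mul σ).sub I1
  have J2 : Integrable (fun v =>
      σ * (σ * (Real.exp (σ * v) * F0 (Real.exp v)) - Real.exp (σ * v) * F1 (Real.exp v)) -
        ((σ + 1) * (Real.exp (σ * v) * F1 (Real.exp v)) - Real.exp (σ * v) * F2 (Real.exp v))) :=
    (J1.const_mul σ).sub ((I1.const_mul (σ + 1)).sub I2)
  obtain ⟨ρ, C, hρ, hb, hinv⟩ := fourier_sep
    (fun v => (hd v).ofReal_comp) (fun v => (hd1 v).ofReal_comp) I0.ofReal J1.ofReal J2.ofReal
  refine ⟨ρ, max C 1, by positivity, hρ, fun t => (hb t).trans (by gcongr; exact le_max_left _ _),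
    fun x hx => ?_⟩
  have hx' : (x : ℂ) ≠ 0 := by exact_mod_cast hx.ne'
  have h1 := hinv (Real.log x)
  rw [Real.exp_log hx] at h1
  have h2 : (F0 x : ℂ) = (x : ℂ) ^ (-(σ : ℂ)) * ((Real.exp (σ * Real.log x) * F0 x : ℝ) : ℂ) := by
    rw [Complex.cpow_def_of_ne_zero hx', ← Complex.ofReal_log hx.le]
    rw [show (Complex.exp ((Real.log x : ℂ) * -(σ : ℂ)) : ℂ) =
      ((Real.exp (Real.log x * -σ) : ℝ) : ℂ) by push_cast; rfl]
    rw [← Complex.ofReal_mul, ← mul_assoc, ← Real.exp_add,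
      show Real.log x * -σ + σ * Real.log x = 0 by ring, Real.exp_zero, one_mul]
  rw [h2, h1, ← integral_const_mul]
  congr 1; ext t
  rw [mul_left_comm, Complex.cpow_add _ _ hx']
  congr 2
  rw [Complex.cpow_def_of_ne_zero hx', ← Complex.ofReal_log hx.le]
  congr 1
  ring

/-! ### the sums `S_k` -/

/-- `∑_{u ≠ 0} (s N(u)²)^k exp (-s N(u)²)` -/
noncomputable def Sk (k : ℕ) (s : ℝ) : ℝ :=
  ∑' u : O, if u = 0 then 0 else pk k (s * (N u : ℝ) ^ 2)

theorem th_eq_Sk : th = Sk 0 := by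
  funext s
  simp only [th, Sk, pk, pow_zero, one_mul]

theorem summable_Sk (k : ℕ) {s : ℝ} (hs : 0 < s) :
    Summable fun u : O => if u = 0 then 0 else pk k (s * (N u : ℝ) ^ 2) := by
  refine Summable.of_nonneg_of_le (fun u => ?_) (fun u => ?_) (summable_pk k hs)
  · split_ifs
    · exact le_rfl
    · exact pk_nonneg k (by positivity)
  · split_ifs
    · exact pk_nonneg k (by positivity)
    · exact le_rfl

theorem Sk_nonneg (k : ℕ) {s : ℝ} (hs : 0 < s) : 0 ≤ Sk k s := by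
  refine tsum_nonneg fun u => ?_
  split_ifs
  · exact le_rfl
  · exact pk_nonneg k (by positivity)

theorem Sa_eq (k : ℕ) {s : ℝ} (hs : 0 < s) : Sa k s = pk k 0 + Sk k s := by
  have h := (summable_pk k hs).tsum_eq_add_tsum_ite 0
  have h0 : (N (0 : O) : ℝ) = 0 := by simp
  rw [h0] at h
  simpa [Sa, Sk] using h

theorem pk_mul_le (k m : ℕ) {y : ℝ} (hy : 0 ≤ y) :
    (y ^ 2) ^ m * pk k (y ^ 2) ≤ (2 * ((m + k)! + (m + k + 1)!)) * ((1 + y) ^ 2)⁻¹ := by
  rw [← div_eq_mul_inv, le_div_iff₀ (by positivity)]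
  have h1 := pk_le (m + k) (sq_nonneg y)
  have h2 := pk_le (m + k + 1) (sq_nonneg y)
  have h3 : (1 + y) ^ 2 ≤ 2 * (1 + y ^ 2) := by nlinarith [sq_nonneg (1 - y)]
  have h4 : 0 ≤ (y ^ 2) ^ m * pk k (y ^ 2) := mul_nonneg (by positivity) (pk_nonneg k (sq_nonneg y))
  calc (y ^ 2) ^ m * pk k (y ^ 2) * (1 + y) ^ 2
      ≤ (y ^ 2) ^ m * pk k (y ^ 2) * (2 * (1 + y ^ 2)) := by gcongr
    _ = 2 * (pk (m + k) (y ^ 2) + pk (m + k + 1) (y ^ 2)) := by unfold pk; ring
    _ ≤ _ := by gcongr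

/-- termwise bound, uniform for `s ≥ s₀` -/
theorem pk_term_le (k m : ℕ) {s s₀ : ℝ} (hs₀ : 0 < s₀) (hs : s₀ ≤ s) {u : O} (hu : u ≠ 0) :
    s ^ m * pk k (s * (N u : ℝ) ^ 2) ≤
      (2 * ((m + k)! + (m + k + 1)!)) * ((1 + Real.sqrt s₀ * N u) ^ 2)⁻¹ := by
  have hs0 : 0 < s := hs₀.trans_le hs
  have hN : (1 : ℝ) ≤ N u := by exact_mod_cast N_pos hu
  have e : s * (N u : ℝ) ^ 2 = (Real.sqrt s * N u) ^ 2 := by
    rw [mul_pow, Real.sq_sqrt hs0.le]
  have h := pk_mul_le k m (y := Real.sqrt s * N u) (by positivity)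
  rw [← e] at h
  have h1 : s ^ m ≤ (s * (N u : ℝ) ^ 2) ^ m := by
    gcongr
    exact le_mul_of_one_le_right hs0.le (one_le_pow₀ hN)
  calc s ^ m * pk k (s * (N u : ℝ) ^ 2) ≤ (s * (N u : ℝ) ^ 2) ^ m * pk k (s * (N u : ℝ) ^ 2) :=
        mul_le_mul_of_nonneg_right h1 (pk_nonneg k (by positivity))
    _ ≤ _ := h
    _ ≤ _ := by gcongr

theorem Sk_bound (k m : ℕ) : ∃ C : ℝ, 0 ≤ C ∧ ∀ s : ℝ, 0 < s →
    s ^ m * Sk k s ≤ C / Real.sqrt s := by
  refine ⟨(2 * ((m + k)! + (m + k + 1)!)) * cB, by have := cB_nonneg; positivity, fun s hs => ?_⟩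
  have hT : 0 < Real.sqrt s := Real.sqrt_pos.2 hs
  obtain ⟨hs1, hs2⟩ := sum_decay hT
  rw [Sk, ← tsum_mul_left]
  calc ∑' u : O, s ^ m * (if u = 0 then 0 else pk k (s * (N u : ℝ) ^ 2))
      ≤ ∑' u : O, (2 * ((m + k)! + (m + k + 1)!)) *
          (if u = 0 then 0 else ((1 + Real.sqrt s * N u) ^ 2)⁻¹ : ℝ) := by
        refine Summable.tsum_le_tsum (fun u => ?_) ((summable_Sk k hs).mul_left _)
          (hs1.mul_left _)
        split_ifs with hu
        · simp
        · exact pk_term_le k m hs le_rfl hu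
    _ ≤ (2 * ((m + k)! + (m + k + 1)!)) * (cB / Real.sqrt s) := by
        rw [tsum_mul_left]; gcongr
    _ = _ := by ring

theorem hasDerivAt_pk (k : ℕ) (a v : ℝ) :
    HasDerivAt (fun v => pk k (Real.exp v * a))
      (k * pk k (Real.exp v * a) - pk (k + 1) (Real.exp v * a)) v := by
  have h1 : HasDerivAt (fun v => Real.exp v * a) (Real.exp v * a) v :=
    (Real.hasDerivAt_exp v).mul_const a
  have h2 := (h1.fun_pow k).mul h1.fun_neg.exp
  refine h2.congr_deriv ?_
  unfold pk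
  rcases k with _ | k
  · simp; ring
  · simp only [Nat.add_sub_cancel]
    ring

theorem hasDerivAt_Sk (k : ℕ) (v : ℝ) :
    HasDerivAt (fun v => Sk k (Real.exp v))
      (k * Sk k (Real.exp v) - Sk (k + 1) (Real.exp v)) v := by
  set s₀ : ℝ := Real.exp (v - 1) with hs₀
  have hs₀0 : 0 < s₀ := Real.exp_pos _
  obtain ⟨hs1, -⟩ := sum_decay (Real.sqrt_pos.2 hs₀0)
  set A : ℝ := k * (2 * ((0 + k)! + (0 + k + 1)!)) + 2 * ((0 + (k + 1))! + (0 + (k + 1) + 1)!)
    with hA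
  have h := hasDerivAt_tsum_of_isPreconnected (t := Ioi (v - 1)) (y₀ := v) (y := v)
    (g := fun (u : O) (w : ℝ) => if u = 0 then 0 else pk k (Real.exp w * (N u : ℝ) ^ 2))
    (g' := fun (u : O) (w : ℝ) =>
      k * (if u = 0 then 0 else pk k (Real.exp w * (N u : ℝ) ^ 2)) -
        (if u = 0 then 0 else pk (k + 1) (Real.exp w * (N u : ℝ) ^ 2)))
    (hs1.mul_left A) isOpen_Ioi isPreconnected_Ioi ?_ ?_ (by simp) (summable_Sk k (Real.exp_pos v))
    (by simp)
  · rw [((summable_Sk k (Real.exp_pos v)).mul_left _).tsum_sub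
      (summable_Sk (k + 1) (Real.exp_pos v)), tsum_mul_left] at h
    exact h
  · intro u w _
    by_cases hu : u = 0
    · simp only [hu, if_true, mul_zero, sub_zero]
      exact hasDerivAt_const w 0
    · simp only [hu, if_false]
      exact hasDerivAt_pk k _ w
  · intro u w hw
    by_cases hu : u = 0
    · simp [hu]
    · simp only [hu, if_false]
      have hw' : s₀ ≤ Real.exp w := Real.exp_le_exp.2 (le_of_lt hw)
      have b1 := pk_term_le k 0 hs₀0 hw' hu
      have b2 := pk_term_le (k + 1) 0 hs₀0 hw' hu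
      rw [pow_zero, one_mul] at b1 b2
      have p1 := pk_nonneg k (x := Real.exp w * (N u : ℝ) ^ 2) (by positivity)
      have p2 := pk_nonneg (k + 1) (x := Real.exp w * (N u : ℝ) ^ 2) (by positivity)
      refine (norm_sub_le _ _).trans ?_
      rw [norm_mul, Real.norm_of_nonneg p1, Real.norm_of_nonneg p2, Real.norm_natCast, hA,
        add_mul, mul_assoc]
      gcongr

/-- `S_k` minus its main term -/
noncomputable def Rk (k : ℕ) (s : ℝ) : ℝ := Sk k s - ck k / Real.sqrt s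

theorem hasDerivAt_Rk (k : ℕ) (v : ℝ) :
    HasDerivAt (fun v => Rk k (Real.exp v))
      (k * Rk k (Real.exp v) - Rk (k + 1) (Real.exp v)) v := by
  have e : ∀ (c w : ℝ), c / Real.sqrt (Real.exp w) = c * Real.exp (-(w / 2)) := by
    intro c w
    rw [← Real.exp_half, Real.exp_neg, div_eq_mul_inv]
  have h1 : HasDerivAt (fun w : ℝ => ck k * Real.exp (-(w / 2)))
      (ck k * (Real.exp (-(v / 2)) * (-(1 / 2)))) v :=
    (((hasDerivAt_id v).div_const 2).fun_neg.exp).const_mul (ck k)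
  simp only [Rk, e]
  refine ((hasDerivAt_Sk k v).sub h1).congr_deriv ?_
  rw [ck_succ]
  ring

theorem inv_sqrt_eq {s : ℝ} (hs : 0 < s) (C : ℝ) : C / Real.sqrt s = C * s ^ (-(1 / 2) : ℝ) := by
  rw [Real.rpow_neg hs.le, Real.sqrt_eq_rpow, div_eq_mul_inv]

theorem integrable_Sk (k : ℕ) {σ : ℝ} (hσ : 1 / 2 < σ) :
    Integrable fun v => Real.exp (σ * v) * Sk k (Real.exp v) := by
  obtain ⟨m, hm⟩ := exists_nat_gt σ
  obtain ⟨C1, h10, h1⟩ := Sk_bound k 0
  obtain ⟨C2, h20, h2⟩ := Sk_bound k m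
  refine integrable_of_bounds (a := 1 / 2) (b := m) (C := C1 + C2)
    (continuous_iff_continuousAt.2 fun v => (hasDerivAt_Sk k v).continuousAt) hσ hm ?_ ?_
  · intro s hs _
    have h := h1 s hs
    rw [pow_zero, one_mul, inv_sqrt_eq hs] at h
    rw [abs_of_nonneg (Sk_nonneg k hs)]
    refine h.trans ?_
    gcongr
    linarith
  · intro s hs
    have hs0 : 0 < s := by linarith
    have h := h2 s hs0
    have h3 : C2 / Real.sqrt s ≤ C1 + C2 := by
      have : 1 ≤ Real.sqrt s := Real.one_le_sqrt.2 hs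
      have h4 : C2 / Real.sqrt s ≤ C2 := div_le_self h20 this
      linarith
    rw [abs_of_nonneg (Sk_nonneg k hs0), Real.rpow_neg hs0.le, Real.rpow_natCast, ← div_eq_mul_inv,
      le_div_iff₀ (by positivity), mul_comm]
    exact h.trans h3

theorem ck_nonneg (k : ℕ) : 0 ≤ ck k := by
  unfold ck
  have : 0 < Real.Gamma (k + 1 / 2) := Real.Gamma_pos_of_pos (by positivity)
  positivity

theorem Rk_bound (k : ℕ) : ∃ C : ℝ, 0 ≤ C ∧ ∀ s : ℝ, 0 < s →
    |Rk k s| ≤ C ∧ |Rk k s| ≤ C / Real.sqrt s := by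
  obtain ⟨C1, h10, h1⟩ := Sk_bound k 0
  obtain ⟨C2, h20, h2⟩ := Sa_sub_bound k
  have hc := ck_nonneg k
  have hp := pk_nonneg k (le_refl (0 : ℝ))
  refine ⟨C1 + C2 + ck k + pk k 0, by positivity, fun s hs => ⟨?_, ?_⟩⟩
  · have h := h2 s hs
    rw [Sa_eq k hs] at h
    rw [Rk, abs_le] at *
    constructor <;> linarith [h.1, h.2]
  · have h := h1 s hs
    rw [pow_zero, one_mul] at h
    have hss : 0 < Real.sqrt s := Real.sqrt_pos.2 hs
    have h3 := Sk_nonneg k hs
    have h4 : 0 ≤ ck k / Real.sqrt s := by positivity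
    have h5 : C1 / Real.sqrt s + ck k / Real.sqrt s ≤
        (C1 + C2 + ck k + pk k 0) / Real.sqrt s := by
      rw [← add_div]
      exact div_le_div_of_nonneg_right (by linarith) hss.le
    have h6 : 0 ≤ C1 / Real.sqrt s := by positivity
    rw [Rk, abs_le]
    constructor <;> linarith

theorem integrable_Rk (k : ℕ) {σ : ℝ} (hσ : 0 < σ) (hσ' : σ < 1 / 2) :
    Integrable fun v => Real.exp (σ * v) * Rk k (Real.exp v) := by
  obtain ⟨C, -, hC⟩ := Rk_bound k
  refine integrable_of_bounds (a := 0) (b := 1 / 2) (C := C)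
    (continuous_iff_continuousAt.2 fun v => (hasDerivAt_Rk k v).continuousAt) hσ hσ' ?_ ?_
  · intro s hs _
    rw [neg_zero, Real.rpow_zero, mul_one]
    exact (hC s hs).1
  · intro s hs
    have hs0 : 0 < s := by linarith
    rw [← inv_sqrt_eq hs0]
    exact (hC s hs0).2

/-- **The two Mellin representations of `th`.** -/
theorem thMellin : ThMellin := by
  refine ⟨fun σ hσ => ?_, ck 0, fun σ hσ hσ' => ?_⟩
  · rw [th_eq_Sk]
    refine melRep_of (F1 := Sk 1) (F2 := Sk 2) (fun v => ?_) (fun v => ?_)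
      (integrable_Sk 0 hσ) (integrable_Sk 1 hσ) (integrable_Sk 2 hσ)
    · simpa using hasDerivAt_Sk 0 v
    · simpa using hasDerivAt_Sk 1 v
  · rw [th_eq_Sk]
    change MelRep (Rk 0) σ
    refine melRep_of (F1 := Rk 1) (F2 := Rk 2) (fun v => ?_) (fun v => ?_)
      (integrable_Rk 0 hσ hσ') (integrable_Rk 1 hσ hσ') (integrable_Rk 2 hσ hσ')
    · simpa using hasDerivAt_Rk 0 v
    · simpa using hasDerivAt_Rk 1 v

end Vale.Agent.P026Z.QLS
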