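import Vale.Agent.P026Z.QLS.Inst
import Vale.Agent.P026Z.QLS.Step
import Vale.Agent.P026Z.QLS.Theta

/-!
P026, block QLS: the quadratic large sieve on `ℤ[ω]`.
-/

namespace Vale.Agent.P026Z.QLS

/-- **the quadratic large sieve**, outer sum over the moduli -/
theorem qls_mod_rho : QLSmod Sym.rho :=
  qls_mod_rho_of fun _ h1 h2 hD => qsym_rho.stepC thMellin h1 h2 hD

/-- **the quadratic large sieve**, outer sum over the arguments -/
theorem qls_arg_rho : QLSarg Sym.rho :=
  qls_arg_rho_of fun _ h1 h2 hD => qsym_rho.stepC thMellin h1 h2 hD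

end Vale.Agent.P026Z.QLS
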