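import Vale.Agent.P026Z.QLS.Sums

/-!
P026, block QLS: the pair identity. The main terms of the Poisson dual cancel against the main
terms of the arguments with small squarefree kernel.
-/

namespace Vale.Agent.P026Z.QLS

open Vale.Agent.P006 Vale.Agent.P006.V1 Vale.Agent.P006.HB Vale.Agent.P006.PS
open Finset

/-- `∑_{d ∣ m} μ(d) / N(d)` -/
noncomputable def rho (m : O) : ℂ := ∑ d ∈ D m, mob d / (N d : ℂ)

open Classical in
/-- the same over the divisors prime to `v` -/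
noncomputable def rv (δ v : O) : ℂ := ∑ g ∈ D δ, if IsCoprime g v then mob g / (N g : ℂ) else 0

/-- `th` without its main term -/
noncomputable def Rm (c₀ s : ℝ) : ℝ := th s - c₀ / Real.sqrt s

/-- the function used for the dual variable `v` -/
noncomputable def Fv (c₀ K : ℝ) (v : O) : ℝ → ℝ := if (N v : ℝ) ≤ K then Rm c₀ else th

/-- separated form of `sv F (δ a b)` -/
noncomputable def sv2 (F : ℝ → ℝ) (δ a b : O) (s : ℝ) : ℂ :=
  ∑ d₀ ∈ D δ, mob d₀ * ∑ d₁ ∈ D a, ∑ d₂ ∈ D b, mob d₁ * mob d₂ *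
    (F ((N d₀ : ℝ) ^ 2 * ((N d₁ : ℝ) ^ 2 * (N d₂ : ℝ) ^ 2 * s)) : ℂ)

open Classical in
/-- squarefree elements of norm at most `K` -/
noncomputable def Sq (K : ℝ) : Finset O := (Hn K).filter Squarefree

theorem mem_Sq {K : ℝ} {v : O} : v ∈ Sq K ↔ Squarefree v ∧ (N v : ℝ) ≤ K := by
  classical
  rw [Sq, mem_filter, mem_Hn]
  exact ⟨fun h => ⟨h.2, h.1.1⟩, fun h => ⟨⟨h.2, h.1.ne_zero⟩, h.1⟩⟩

theorem sv_eq_sv2 (F : ℝ → ℝ) {δ a b : O} (hδ : Od δ) (ha : Od a) (hb : Od b)
    (hab : IsCoprime a b) (hc : IsCoprime δ (a * b)) (s : ℝ) :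
    sv F (δ * (a * b)) s = sv2 F δ a b s := by
  rw [sv, sv2, sum_D_coprime δ hδ.prim hδ.sqf _ (ha.prim.mul hb.prim) hc]
  refine sum_congr rfl fun d₀ h₀ => ?_
  rw [sum_D_coprime a ha.prim ha.sqf _ hb.prim hab, mul_sum]
  refine sum_congr rfl fun d₁ h₁ => ?_
  rw [mul_sum]
  refine sum_congr rfl fun d₂ h₂ => ?_
  rw [mem_D hδ.ne_zero] at h₀
  rw [mem_D ha.ne_zero] at h₁
  rw [mem_D hb.ne_zero] at h₂
  rw [mob_mul' h₀.1.ne_zero (mul_ne_zero h₁.1.ne_zero h₂.1.ne_zero),
    mob_mul' h₁.1.ne_zero h₂.1.ne_zero, N_mul, N_mul]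
  have e : (((N d₀ * (N d₁ * N d₂) : ℕ) : ℝ)) ^ 2 * s =
      (N d₀ : ℝ) ^ 2 * ((N d₁ : ℝ) ^ 2 * (N d₂ : ℝ) ^ 2 * s) := by push_cast; ring
  rw [e]; ring

theorem rho_mul {a b : O} (ha : Od a) (hb : Od b) (hab : IsCoprime a b) :
    rho (a * b) = rho a * rho b := by
  rw [rho, sum_D_coprime a ha.prim ha.sqf _ hb.prim hab, rho, rho, sum_mul_sum]
  refine sum_congr rfl fun d₁ h₁ => sum_congr rfl fun d₂ h₂ => ?_
  rw [mem_D ha.ne_zero] at h₁
  rw [mem_D hb.ne_zero] at h₂
  rw [mob_mul' h₁.1.ne_zero h₂.1.ne_zero, N_mul]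
  push_cast
  rw [div_mul_div_comm]

theorem sv_th (c₀ : ℝ) {m : O} (hm : m ≠ 0) {s : ℝ} (hs : 0 < s) :
    sv th m s = sv (Rm c₀) m s + ((c₀ / Real.sqrt s : ℝ) : ℂ) * rho m := by
  rw [sv, sv, rho, mul_sum, ← sum_add_distrib]
  refine sum_congr rfl fun d hd => ?_
  rw [mem_D hm] at hd
  have pd : (0 : ℝ) < N d := by exact_mod_cast hd.1.N_pos
  have h1 : Real.sqrt ((N d : ℝ) ^ 2 * s) = N d * Real.sqrt s := by
    rw [Real.sqrt_mul (by positivity), Real.sqrt_sq pd.le]
  rw [Rm, h1]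
  have pd' : (N d : ℂ) ≠ 0 := by exact_mod_cast pd.ne'
  have ps : ((Real.sqrt s : ℝ) : ℂ) ≠ 0 := by exact_mod_cast (Real.sqrt_pos.2 hs).ne'
  push_cast
  field_simp
  ring

theorem cop_rv {δ : O} (hδ : δ ≠ 0) (v : O) : cop δ v * rv δ v = cop δ v * rho δ := by
  unfold cop
  split_ifs with h
  · rw [rv, rho]
    congr 1
    refine sum_congr rfl fun g hg => ?_
    rw [mem_D hδ] at hg
    rw [if_pos (h.symm.of_isCoprime_of_dvd_left hg.2)]
  · simp

theorem norm_rv_le {δ : O} (hδ : δ ≠ 0) (v : O) : ‖rv δ v‖ ≤ (D δ).card := by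
  rw [rv]
  refine (norm_sum_le _ _).trans ?_
  rw [card_eq_sum_ones]
  push_cast
  refine sum_le_sum fun g hg => ?_
  rw [mem_D hδ] at hg
  have pg : (1 : ℝ) ≤ N g := by exact_mod_cast hg.1.N_pos
  split_ifs
  · rw [norm_div, norm_mob, Complex.norm_natCast]
    exact div_le_one_of_le₀ pg (by positivity)
  · simp

/-- the form of one pair on the dual side -/
noncomputable def dform (χ : O → O → ℂ) (F : ℝ → ℝ) (q : ℝ) (a b v : O) : ℂ :=
  χ a v * χ b v / ((Real.sqrt (N a) * Real.sqrt (N b) : ℝ) : ℂ) *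
    sv2 F 1 a b (b0 * q * N v / (N a * N b))

open Classical in
/-- the coefficient of the dual form -/
noncomputable def dco (A : ℝ) (δ d v : O) : ℂ :=
  if Squarefree v ∧ d ∣ v then rv δ v * mob d * ((A / N d : ℝ) : ℂ) else 0

/-- one term of the dual side -/
noncomputable def dualT (χ : O → O → ℂ) (c₀ K A : ℝ) (δ d a b v : O) : ℂ :=
  dco A δ d v * dform χ (Fv c₀ K v) (A / (N d : ℝ) ^ 2) a b v

/-- one term of the side of the arguments -/
noncomputable def primT (χ : O → O → ℂ) (c₀ A : ℝ) (δ a b v : O) : ℂ :=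
  cop δ v * (χ a v * χ b v * sv2 (Rm c₀) δ a b (b0 * N v / A))

/-- the sum over the arguments with large squarefree kernel -/
noncomputable def big (χ : O → O → ℂ) (K A : ℝ) (k l : O) : ℂ :=
  ∑' p : O × O, if K < (N p.1 : ℝ) then pr (fun x => χ k x * χ l x * gw A x) p else 0

theorem norm_dco_le {A : ℝ} (hA : 0 < A) {δ : O} (hδ : δ ≠ 0) (d v : O) :
    ‖dco A δ d v‖ ≤ (D δ).card * (A / N d) := by
  rw [dco]
  split_ifs
  · rw [norm_mul, norm_mul, norm_mob, mul_one, Complex.norm_real,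
      Real.norm_of_nonneg (by positivity)]
    gcongr
    exact norm_rv_le hδ v
  · rw [norm_zero]; positivity

theorem eventually_lt (K : ℝ) : ∀ᶠ v : O in Filter.cofinite, K < (N v : ℝ) := by
  rw [Filter.eventually_cofinite]
  refine (finite_N_le K).subset fun v hv => ?_
  simpa using hv

namespace QSym

variable {χ : O → O → ℂ} (hχ : QSym χ)

include hχ

open Classical in
theorem summable_dform {q : ℝ} (hq : 0 < q) {a b : O} (ha : Od a) (hb : Od b) :
    Summable fun v : O => if Squarefree v then dform χ th q a b v else 0 := by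
  have hb0 := b0_pos
  have pa : (0 : ℝ) < N a := by exact_mod_cast ha.prim.N_pos
  have pb : (0 : ℝ) < N b := by exact_mod_cast hb.prim.N_pos
  have h1 : ∀ v : O, (if Squarefree v then dform χ th q a b v else 0) =
      ∑ d₁ ∈ D a, ∑ d₂ ∈ D b, (χ a v * χ b v) *
        (mob d₁ * mob d₂ / ((Real.sqrt (N a) * Real.sqrt (N b) : ℝ) : ℂ) *
        if Squarefree v then
          (th (((N d₁ : ℝ) ^ 2 * (N d₂ : ℝ) ^ 2 * (b0 * q / (N a * N b))) * N v) : ℂ) else 0) := by
    intro v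
    split_ifs
    · rw [dform, sv2, D_one, sum_singleton, mob_one, one_mul, mul_sum]
      refine sum_congr rfl fun d₁ _ => ?_
      rw [mul_sum]
      refine sum_congr rfl fun d₂ _ => ?_
      have e : ((N (1 : O) : ℕ) : ℝ) ^ 2 * ((N d₁ : ℝ) ^ 2 * (N d₂ : ℝ) ^ 2 *
          (b0 * q * N v / (N a * N b))) =
          ((N d₁ : ℝ) ^ 2 * (N d₂ : ℝ) ^ 2 * (b0 * q / (N a * N b))) * N v := by
        rw [N_one]; push_cast; ring
      rw [e]; ring
    · simp
  simp only [h1]
  refine summable_sum fun d₁ h₁ => summable_sum fun d₂ h₂ => ?_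
  rw [mem_D ha.ne_zero] at h₁
  rw [mem_D hb.ne_zero] at h₂
  have p1 : (0 : ℝ) < N d₁ := by exact_mod_cast h₁.1.N_pos
  have p2 : (0 : ℝ) < N d₂ := by exact_mod_cast h₂.1.N_pos
  have h2 := ((summable_th_sq (c := (N d₁ : ℝ) ^ 2 * (N d₂ : ℝ) ^ 2 * (b0 * q / (N a * N b)))
    (by positivity)).mul_left
    (mob d₁ * mob d₂ / ((Real.sqrt (N a) * Real.sqrt (N b) : ℝ) : ℂ))).norm
  refine Summable.of_norm_bounded h2 fun v => ?_
  rw [norm_mul (χ a v * χ b v)]
  refine mul_le_of_le_one_left (norm_nonneg _) ?_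
  rw [norm_mul]
  exact mul_le_one₀ (hχ.norm_le ha v) (norm_nonneg _) (hχ.norm_le hb v)

theorem summable_dualT (c₀ K : ℝ) {A : ℝ} (hA : 0 < A) {δ d a b : O} (hδ : δ ≠ 0) (hd : d ≠ 0)
    (ha : Od a) (hb : Od b) : Summable (dualT χ c₀ K A δ d a b) := by
  classical
  have pd : (0 : ℝ) < N d := by exact_mod_cast Vale.Agent.P006.N_pos hd
  have h1 := ((hχ.summable_dform (q := A / (N d : ℝ) ^ 2) (by positivity) ha hb).norm.mul_left
    ((D δ).card * (A / N d)))
  have h2 : Summable fun v => dco A δ d v * dform χ th (A / (N d : ℝ) ^ 2) a b v := by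
    refine Summable.of_norm_bounded h1 fun v => ?_
    by_cases hv : Squarefree v
    · rw [if_pos hv, norm_mul]
      gcongr
      exact norm_dco_le hA hδ d v
    · rw [dco, if_neg (fun h => hv h.1), if_neg hv]; simp
  refine h2.congr_cofinite ?_
  filter_upwards [eventually_lt K] with v hv
  rw [dualT, Fv, if_neg (not_le.2 hv)]

open Classical in
/-- the dual side for one `v` -/
theorem dual_v {δ a b : O} (hδ : Od δ) (ha : Od a) (hb : Od b) (hab : IsCoprime a b)
    (hc : IsCoprime δ (a * b)) {A : ℝ} (hA : 0 < A) (c₀ K : ℝ) (v : O) :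
    ∑ d ∈ D δ, mob d * ((A / N d / Real.sqrt (N (a * b)) : ℝ) : ℂ) *
      ∑' u : O, pr (fun y => if d ∣ y then
        χ (a * b) y * gw ((N d : ℝ) ^ 2 * N (a * b) / A) y else 0) (v, u) =
    ∑ d ∈ D δ, dualT χ c₀ K A δ d a b v + if v ∈ Sq K then
      cop δ v * χ (a * b) v * (((c₀ / Real.sqrt (b0 * N v / A) : ℝ) : ℂ) * rho (δ * (a * b)))
      else 0 := by
  have hq := ha.mul hb hab
  have hb0 := b0_pos
  have pa : (0 : ℝ) < N a := by exact_mod_cast ha.prim.N_pos
  have pb : (0 : ℝ) < N b := by exact_mod_cast hb.prim.N_pos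
  by_cases hv : Squarefree v
  swap
  · rw [if_neg (fun h => hv (mem_Sq.1 h).1), add_zero]
    refine sum_congr rfl fun d _ => ?_
    have : ∀ u : O, pr (fun y => if d ∣ y then
        χ (a * b) y * gw ((N d : ℝ) ^ 2 * N (a * b) / A) y else 0) (v, u) = 0 := fun u => by
      rw [pr, if_neg fun h => hv h.1]
    rw [tsum_congr this, tsum_zero, dualT, dco, if_neg (fun h => hv h.1)]
    simp
  have pv : (0 : ℝ) < N v := by exact_mod_cast Vale.Agent.P006.N_pos hv.ne_zero
  have hsq : Real.sqrt (N (a * b)) = Real.sqrt (N a) * Real.sqrt (N b) := by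
    rw [N_mul, Nat.cast_mul, Real.sqrt_mul pa.le]
  -- first the form with `th`
  have h1 : ∑ d ∈ D δ, mob d * ((A / N d / Real.sqrt (N (a * b)) : ℝ) : ℂ) *
      ∑' u : O, pr (fun y => if d ∣ y then
        χ (a * b) y * gw ((N d : ℝ) ^ 2 * N (a * b) / A) y else 0) (v, u) =
      ∑ d ∈ D δ, dco A δ d v * (χ (a * b) v / ((Real.sqrt (N (a * b)) : ℝ) : ℂ) *
        sv th (a * b) (b0 * (A / (N d : ℝ) ^ 2) * N v / (N a * N b))) := by
    rw [sum_D_split v δ hδ.prim hδ.sqf]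
    refine sum_congr rfl fun d hd => ?_
    rw [mem_D hδ.ne_zero] at hd
    have pd : (0 : ℝ) < N d := by exact_mod_cast hd.1.N_pos
    by_cases hdv : d ∣ v
    swap
    · rw [dco, if_neg (fun h => hdv h.2), zero_mul]
      exact sum_eq_zero fun g _ => if_neg fun h => hdv h.1
    rw [dco, if_pos ⟨hv, hdv⟩, rv, sum_mul, sum_mul, sum_mul]
    refine sum_congr rfl fun g hg => ?_
    rw [mem_D hδ.ne_zero] at hg
    have pg : (0 : ℝ) < N g := by exact_mod_cast hg.1.N_pos
    by_cases hgv : IsCoprime g v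
    swap
    · rw [if_neg (fun h => hgv h.2), if_neg hgv]; simp
    have hdg : IsCoprime d g := (hgv.symm.of_isCoprime_of_dvd_left hdv)
    have sdg : Squarefree (d * g) := hδ.sqf.squarefree_of_dvd (hdg.mul_dvd hd.2 hg.2)
    have pdg : (0 : ℝ) < N (d * g) := by
      exact_mod_cast (hd.1.mul hg.1).N_pos
    have pq : (0 : ℝ) < N (a * b) := by exact_mod_cast hq.prim.N_pos
    rw [if_pos ⟨hdv, hgv⟩, if_pos hgv, hχ.tsum_dual hq hg.1.ne_zero sdg
      (hc.of_isCoprime_of_dvd_left hg.2) hdv hgv hv (by positivity),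
      mob_mul' hd.1.ne_zero hg.1.ne_zero]
    have e : (N g : ℝ) ^ 2 * (b0 * N v / ((N (d * g) : ℝ) ^ 2 * N (a * b) / A)) =
        b0 * (A / (N d : ℝ) ^ 2) * N v / (N a * N b) := by
      rw [N_mul, N_mul]; push_cast; field_simp
    rw [e, N_mul d g]
    have pg' : (N g : ℂ) ≠ 0 := by exact_mod_cast pg.ne'
    have pd' : (N d : ℂ) ≠ 0 := by exact_mod_cast pd.ne'
    push_cast
    field_simp
  rw [h1]
  have h2 : ∀ (F : ℝ → ℝ) (d : O), dform χ F (A / (N d : ℝ) ^ 2) a b v =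
      χ (a * b) v / ((Real.sqrt (N (a * b)) : ℝ) : ℂ) *
        sv F (a * b) (b0 * (A / (N d : ℝ) ^ 2) * N v / (N a * N b)) := by
    intro F d
    rw [dform, ← sv_eq_sv2 F od_one ha hb hab isCoprime_one_left, one_mul, hsq,
      hχ.mul_left a b v ha hb hab]
  by_cases hK : (N v : ℝ) ≤ K
  swap
  · rw [if_neg (fun h => hK (mem_Sq.1 h).2), add_zero]
    refine sum_congr rfl fun d _ => ?_
    rw [dualT, Fv, if_neg hK, h2]
  rw [if_pos (mem_Sq.2 ⟨hv, hK⟩)]
  have h3 : ∀ d ∈ D δ, dco A δ d v * (χ (a * b) v / ((Real.sqrt (N (a * b)) : ℝ) : ℂ) *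
        sv th (a * b) (b0 * (A / (N d : ℝ) ^ 2) * N v / (N a * N b))) =
      dualT χ c₀ K A δ d a b v + (if d ∣ v then mob d else 0) * (rv δ v * χ (a * b) v *
        (((c₀ / Real.sqrt (b0 * N v / A) : ℝ) : ℂ) * rho (a * b))) := by
    intro d hd
    rw [mem_D hδ.ne_zero] at hd
    have pd : (0 : ℝ) < N d := by exact_mod_cast hd.1.N_pos
    rw [dualT, Fv, if_pos hK, h2, sv_th c₀ hq.ne_zero (by positivity), mul_add, mul_add]
    congr 1
    by_cases hdv : d ∣ v
    swap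
    · rw [dco, if_neg (fun h => hdv h.2), if_neg hdv]; simp
    rw [dco, if_pos ⟨hv, hdv⟩, if_pos hdv]
    have e : A / N d / Real.sqrt (N (a * b)) *
        (c₀ / Real.sqrt (b0 * (A / (N d : ℝ) ^ 2) * N v / (N a * N b))) =
        c₀ / Real.sqrt (b0 * N v / A) := by
      have q1 : 0 < Real.sqrt (b0 * N v / A) := Real.sqrt_pos.2 (by positivity)
      have q2 : 0 < Real.sqrt (N (a * b)) := by rw [hsq]; positivity
      have e1 : Real.sqrt (b0 * (A / (N d : ℝ) ^ 2) * N v / (N a * N b)) =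
          A / N d / Real.sqrt (N (a * b)) * Real.sqrt (b0 * N v / A) := by
        rw [Real.sqrt_eq_iff_mul_self_eq (by positivity) (by positivity)]
        have s1 : Real.sqrt (b0 * N v / A) * Real.sqrt (b0 * N v / A) = b0 * N v / A :=
          Real.mul_self_sqrt (by positivity)
        have s2 : Real.sqrt (N (a * b)) * Real.sqrt (N (a * b)) = N a * N b := by
          rw [Real.mul_self_sqrt (by positivity), N_mul]; push_cast; rfl
        symm
        calc A / N d / Real.sqrt (N (a * b)) * Real.sqrt (b0 * N v / A) *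
              (A / N d / Real.sqrt (N (a * b)) * Real.sqrt (b0 * N v / A))
            = (A / N d) ^ 2 / (Real.sqrt (N (a * b)) * Real.sqrt (N (a * b))) *
              (Real.sqrt (b0 * N v / A) * Real.sqrt (b0 * N v / A)) := by field_simp
          _ = _ := by rw [s1, s2]; field_simp
      rw [e1]
      field_simp
    have e' := congrArg (fun x : ℝ => (x : ℂ)) e
    simp only [Complex.ofReal_mul, Complex.ofReal_div (A / N d)] at e'
    rw [← e']
    ring
  rw [sum_congr rfl h3, sum_add_distrib, ← sum_mul, ← cop_eq_sum hδ.prim hδ.sqf,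
    rho_mul hδ hq hc]
  congr 1
  linear_combination (χ (a * b) v * ((c₀ / Real.sqrt (b0 * N v / A) : ℝ) : ℂ) * rho (a * b)) *
    cop_rv hδ.ne_zero v

/-- **the pair identity** -/
theorem big_eq {δ a b : O} (hδ : Od δ) (ha : Od a) (hb : Od b) (hab : IsCoprime a b)
    (hc : IsCoprime δ (a * b)) (h4 : (4 : O) ∣ a - b) {A : ℝ} (hA : 0 < A) (c₀ K : ℝ) :
    big χ K A (δ * a) (δ * b) =
      (w6 : ℂ) * χ (a * b) 0 *
        (∑ d ∈ D δ, mob d * ((A / N d / Real.sqrt (N (a * b)) : ℝ) : ℂ) - cop δ 0) +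
      (∑ d ∈ D δ, ∑' v : O, dualT χ c₀ K A δ d a b v - ∑ v ∈ Sq K, primT χ c₀ A δ a b v) := by
  classical
  have hq := ha.mul hb hab
  have hb0 := b0_pos
  have pq : (0 : ℝ) < N (a * b) := by exact_mod_cast hq.prim.N_pos
  set ψ : O → ℂ := fun x => cop δ x * χ (a * b) x * gw A x with hψ
  have e0 : (fun x => χ (δ * a) x * χ (δ * b) x * gw A x) = ψ := by
    funext x
    rw [hχ.mul_left δ a x hδ ha hc.of_mul_right_left, hχ.mul_left δ b x hδ hb hc.of_mul_right_right,
      hψ]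
    simp only
    rw [hχ.mul_left a b x ha hb hab, ← hχ.sq δ x hδ]
    ring
  have sψ : Summable ψ := summable_gw hA fun x => by
    rw [norm_mul]
    exact mul_le_one₀ (norm_cop_le _ _) (norm_nonneg _) (hχ.norm_le hq x)
  have H1 := hasSum_pr sψ
  set P : O → ℂ := fun v => ∑' u : O, pr ψ (v, u) with hP
  have sP : Summable P := H1.summable.prod
  have tP : ∑' v, P v = (w6 : ℂ) * ∑' x : O, if x = 0 then 0 else ψ x := by
    rw [← H1.tsum_eq, H1.summable.tsum_prod]
  -- the left side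
  have e1 : big χ K A (δ * a) (δ * b) = ∑' v, P v - ∑ v ∈ Sq K, P v := by
    rw [big, e0]
    have s1 : Summable fun p : O × O => if K < (N p.1 : ℝ) then pr ψ p else 0 := by
      refine Summable.of_norm_bounded H1.summable.norm fun p => ?_
      split_ifs
      · exact le_rfl
      · rw [norm_zero]; exact norm_nonneg _
    rw [s1.tsum_prod]
    have e2 : ∀ v : O, (∑' u : O, if K < (N (v, u).1 : ℝ) then pr ψ (v, u) else 0) =
        P v - if v ∈ Sq K then P v else 0 := by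
      intro v
      by_cases h : K < (N v : ℝ)
      · simp only [h, if_true]
        rw [if_neg (fun h' => not_le.2 h (mem_Sq.1 h').2), sub_zero]
      · simp only [h, if_false, tsum_zero]
        by_cases hv : Squarefree v
        · rw [if_pos (mem_Sq.2 ⟨hv, not_lt.1 h⟩), sub_self]
        · rw [if_neg (fun h' => hv (mem_Sq.1 h').1), sub_zero, hP]
          simp only
          rw [hψ, hχ.tsum_primal hδ hq hc hA, if_neg hv]
    rw [tsum_congr e2, sP.tsum_sub (summable_of_ne_finset_zero (s := Sq K) fun v hv => if_neg hv),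
      tsum_eq_sum (s := Sq K) fun v hv => if_neg hv]
    congr 1
    exact sum_congr rfl fun v hv => if_pos hv
  -- the dual side
  set f : O → O → ℂ := fun d y => if d ∣ y then
    χ (a * b) y * gw ((N d : ℝ) ^ 2 * N (a * b) / A) y else 0 with hf
  set co : O → ℂ := fun d => mob d * ((A / N d / Real.sqrt (N (a * b)) : ℝ) : ℂ) with hco
  have sf : ∀ d ∈ D δ, Summable (f d) := by
    intro d hd
    rw [mem_D hδ.ne_zero] at hd
    have pd : (0 : ℝ) < N d := by exact_mod_cast hd.1.N_pos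
    refine Summable.of_norm_bounded (summable_gw (A := (N d : ℝ) ^ 2 * N (a * b) / A)
      (by positivity) (hχ.norm_le hq)).norm fun y => ?_
    simp only [hf]
    split_ifs
    · exact le_rfl
    · rw [norm_zero]; exact norm_nonneg _
  have e3 : (w6 : ℂ) * ∑' x, ψ x = (w6 : ℂ) * χ (a * b) 0 * ∑ d ∈ D δ, co d +
      ∑' v : O, ∑ d ∈ D δ, co d * ∑' u : O, pr (f d) (v, u) := by
    rw [Summable.tsum_finsetSum fun d hd => ((hasSum_pr (sf d hd)).summable.prod).mul_left _,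
      hψ, hχ.poisson_cop hδ ha hb hab h4 hA, mul_sum, mul_sum, ← sum_add_distrib]
    refine sum_congr rfl fun d hd => ?_
    rw [tsum_mul_left, ← (hasSum_pr (sf d hd)).summable.tsum_prod, (hasSum_pr (sf d hd)).tsum_eq]
    have h5 := (sf d hd).tsum_eq_add_tsum_ite 0
    have h6 : f d 0 = χ (a * b) 0 := by
      simp only [hf]
      rw [if_pos (dvd_zero d), gw_zero, mul_one]
    rw [h6] at h5
    have h7 : (∑' y : O, if d ∣ y then χ (a * b) y * gw ((N d : ℝ) ^ 2 * N (a * b) / A) y else 0)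
        = ∑' y, f d y := rfl
    rw [h7, h5]
    ring
  set mt : O → ℂ := fun v => cop δ v * χ (a * b) v *
    (((c₀ / Real.sqrt (b0 * N v / A) : ℝ) : ℂ) * rho (δ * (a * b))) with hmt
  have e4 : ∑' v : O, ∑ d ∈ D δ, co d * ∑' u : O, pr (f d) (v, u) =
      ∑ d ∈ D δ, ∑' v : O, dualT χ c₀ K A δ d a b v + ∑ v ∈ Sq K, mt v := by
    have sd : ∀ d ∈ D δ, Summable (dualT χ c₀ K A δ d a b) := fun d hd =>
      hχ.summable_dualT c₀ K hA hδ.ne_zero ((mem_D hδ.ne_zero).1 hd).1.ne_zero ha hb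
    rw [tsum_congr (hχ.dual_v hδ ha hb hab hc hA c₀ K), Summable.tsum_add (summable_sum sd)
      (summable_of_ne_finset_zero (s := Sq K) fun v hv => if_neg hv),
      Summable.tsum_finsetSum sd, tsum_eq_sum (s := Sq K) fun v hv => if_neg hv]
    congr 1
    exact sum_congr rfl fun v hv => if_pos hv
  have e5 : ∑ v ∈ Sq K, P v = ∑ v ∈ Sq K, primT χ c₀ A δ a b v + ∑ v ∈ Sq K, mt v := by
    rw [← sum_add_distrib]
    refine sum_congr rfl fun v hv => ?_
    rw [mem_Sq] at hv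
    have pv : (0 : ℝ) < N v := by exact_mod_cast Vale.Agent.P006.N_pos hv.1.ne_zero
    simp only [hP, hmt]
    rw [hψ, hχ.tsum_primal hδ hq hc hA, if_pos hv.1, sv_th c₀ (hδ.mul hq hc).ne_zero
      (by positivity), primT, ← sv_eq_sv2 _ hδ ha hb hab hc, hχ.mul_left a b v ha hb hab]
    ring
  have e6 := sψ.tsum_eq_add_tsum_ite 0
  have e7 : ψ 0 = cop δ 0 * χ (a * b) 0 := by simp only [hψ]; rw [gw_zero, mul_one]
  rw [e1, tP, e5]
  rw [e4, e6, e7] at e3
  linear_combination e3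

end QSym

end Vale.Agent.P026Z.QLS
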