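import Vale.Agent.P026Z.QLS.Cls
import Vale.Agent.P026Z.QLS.Basic
import Vale.Agent.P026Z.Sym.Recip
import Vale.Agent.P026Z.Sym.PCh

/-!
P026, block QLS: the quadratic residue symbol satisfies `QSym`; the large sieve for it from the
Poisson step in one class.
-/

namespace Vale.Agent.P026Z.QLS

open Vale.Agent.P006 Vale.Agent.P026Z.Sym

theorem Od.odd {n : O} (h : Od n) : IsCoprime n 2 := odd_iff_not_dvd.2 h.2.2

theorem od_of {n : O} (hp : Primary n) (hs : Squarefree n) (h2 : IsCoprime n 2) : Od n :=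
  ⟨hp, hs, odd_iff_not_dvd.1 h2⟩

theorem qsym_rho : QSym Sym.rho where
  mul_right n x y _ := Sym.rho_mul n x y
  mul_left a b x ha hb _ := Sym.rho_mul_left ha.ne_zero hb.ne_zero x
  sq n x _ := Sym.rho_mul_self n x
  per n _ := Sym.rho_per n
  gauss a b h ha hb hab h4 := by
    have hq := ha.mul hb hab
    rw [quad_gauss hq.odd hq.sqf h, eps_mul_of_congr ha.odd h4]
    ring
  recip := ⟨fun a b => (hil a b : ℂ), fun a b => (norm_hil a b).le,
    fun a b b' h => by simp only [hil_congr_right a h],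
    fun a b ha hb => Sym.rho_recip ha.odd hb.odd⟩

theorem pchar_rho_od (n : O) (hn : Od n) : CLS.PChar n (Sym.rho n) :=
  pchar_rho hn.1 hn.sqf hn.odd

theorem step_of_stepC {χ : O → O → ℂ}
    (h : ∀ ξ : ℝ, 1 ≤ ξ → ξ ≤ 2 → HypD χ ξ → StepC χ ξ) : Step χ :=
  fun ξ h1 h2 hD => stepOut_of_cls h1 (h ξ h1 h2 hD)

theorem qls_arg_rho_of
    (h : ∀ ξ : ℝ, 1 ≤ ξ → ξ ≤ 2 → HypD Sym.rho ξ → StepC Sym.rho ξ) : QLSarg Sym.rho :=
  qls_arg qsym_rho pchar_rho_od (step_of_stepC h)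

theorem qls_mod_rho_of
    (h : ∀ ξ : ℝ, 1 ≤ ξ → ξ ≤ 2 → HypD Sym.rho ξ → StepC Sym.rho ξ) : QLSmod Sym.rho :=
  qls_mod qsym_rho pchar_rho_od (step_of_stepC h)

end Vale.Agent.P026Z.QLS
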