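import Vale.Agent.P026Z.QLS.Basic

/-!
P026, block QLS: sums over `u` of `exp (-s N(u)²)` with coprimality and divisibility conditions;
Poisson summation for the quadratic symbol.
-/

namespace Vale.Agent.P026Z.QLS

open Vale.Agent.P006 Vale.Agent.P006.V1 Vale.Agent.P006.HB Vale.Agent.P006.PS
open Finset

/-- `exp (-s N(u)²)` -/
noncomputable def ex (s : ℝ) (u : O) : ℂ := ((Real.exp (-(s * (N u : ℝ) ^ 2)) : ℝ) : ℂ)

/-- the Gaussian weight -/
noncomputable def gw (A : ℝ) (x : O) : ℂ := ((Real.exp (-(b0 * N x / A)) : ℝ) : ℂ)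

/-- `∑_{d ∣ m} μ(d) F(N(d)² s)` -/
noncomputable def sv (F : ℝ → ℝ) (m : O) (s : ℝ) : ℂ :=
  ∑ d ∈ D m, mob d * (F ((N d : ℝ) ^ 2 * s) : ℂ)

theorem summable_gw {A : ℝ} (hA : 0 < A) {ψ : O → ℂ} (hψ : ∀ x, ‖ψ x‖ ≤ 1) :
    Summable fun x : O => ψ x * gw A x := summable_pair hA hψ

theorem gw_zero (A : ℝ) : gw A 0 = 1 := by simp [gw]

theorem norm_ex_le {s : ℝ} (hs : 0 < s) (u : O) : ‖ex s u‖ ≤ ‖gw (b0 / s) u‖ := by
  have hb := b0_pos
  rw [ex, gw, Complex.norm_real, Complex.norm_real, Real.norm_of_nonneg (Real.exp_pos _).le,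
    Real.norm_of_nonneg (Real.exp_pos _).le, Real.exp_le_exp]
  have h1 : b0 * (N u : ℝ) / (b0 / s) = s * N u := by field_simp
  have h2 : (N u : ℝ) ≤ (N u : ℝ) ^ 2 := by
    have : N u ≤ N u ^ 2 := Nat.le_self_pow (by norm_num) _
    exact_mod_cast this
  rw [h1]
  nlinarith

theorem summable_ex {s : ℝ} (hs : 0 < s) {ψ : O → ℂ} (hψ : ∀ x, ‖ψ x‖ ≤ 1) :
    Summable fun x : O => ψ x * ex s x := by
  have h := (summable_gw (A := b0 / s) (div_pos b0_pos hs) (ψ := fun _ => 1) (by simp)).norm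
  refine Summable.of_norm_bounded h fun x => ?_
  rw [norm_mul, one_mul]
  exact (mul_le_of_le_one_left (norm_nonneg _) (hψ x)).trans (norm_ex_le hs x)

theorem th_eq (s : ℝ) : (th s : ℂ) = ∑' u : O, if u = 0 then 0 else ex s u := by
  rw [th, Complex.ofReal_tsum]
  refine tsum_congr fun u => ?_
  split_ifs
  · simp
  · rfl

theorem th_nonneg (s : ℝ) : 0 ≤ th s := by
  refine tsum_nonneg fun u => ?_
  split_ifs
  · exact le_rfl
  · exact (Real.exp_pos _).le

theorem tsum_dvd_eq {g : O} (hg : g ≠ 0) (f : O → ℂ) :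
    (∑' u : O, if g ∣ u then f u else 0) = ∑' x : O, f (g * x) := by
  have hinj : Function.Injective fun x : O => g * x := mul_right_injective₀ hg
  rw [← hinj.tsum_eq (f := fun u => if g ∣ u then f u else 0)]
  · exact tsum_congr fun x => if_pos (dvd_mul_right g x)
  · intro n hn
    rw [Function.mem_support] at hn
    by_contra hne
    apply hn
    rw [if_neg]
    rintro ⟨x, rfl⟩
    exact hne ⟨x, rfl⟩

theorem ex_mul (s : ℝ) (g x : O) : ex s (g * x) = ex ((N g : ℝ) ^ 2 * s) x := by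
  rw [ex, ex, N_mul]
  push_cast
  congr 2
  ring

theorem tsum_cop_ex {s : ℝ} (hs : 0 < s) {m : O} (hm : Prim m) (sm : Squarefree m) :
    (∑' x : O, if x = 0 then 0 else cop m x * ex s x) = sv th m s := by
  have h1 : ∀ x : O, (if x = 0 then 0 else cop m x * ex s x) =
      ∑ d ∈ D m, if d ∣ x then mob d * (if x = 0 then 0 else ex s x) else 0 := by
    intro x
    rw [cop_eq_sum hm sm]
    split_ifs
    · simp
    · rw [sum_mul]
      refine sum_congr rfl fun d _ => ?_
      split_ifs <;> simp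
  rw [tsum_congr h1, Summable.tsum_finsetSum, sv]
  · refine sum_congr rfl fun d hd => ?_
    rw [mem_D hm.ne_zero] at hd
    rw [tsum_dvd_eq hd.1.ne_zero, tsum_mul_left, th_eq]
    congr 1
    refine tsum_congr fun x => ?_
    simp only [mul_eq_zero, hd.1.ne_zero, false_or, ex_mul]
  · intro d _
    refine Summable.of_norm_bounded (summable_ex hs (ψ := fun _ => 1) (by simp)).norm fun x => ?_
    rw [one_mul]
    split_ifs
    · simp
    · rw [norm_mul, norm_mob, one_mul]
    · simp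

theorem tsum_dvd_cop_ex {s : ℝ} (hs : 0 < s) {m g : O} (hm : Prim m) (sm : Squarefree m)
    (hg : g ≠ 0) (hgm : IsCoprime g m) :
    (∑' u : O, if g ∣ u then (if u = 0 then 0 else cop m u * ex s u) else 0) =
      sv th m ((N g : ℝ) ^ 2 * s) := by
  have pg : (0 : ℝ) < N g := by exact_mod_cast Vale.Agent.P006.N_pos hg
  rw [tsum_dvd_eq hg, ← tsum_cop_ex (by positivity) hm sm]
  refine tsum_congr fun x => ?_
  simp only [mul_eq_zero, hg, false_or, ex_mul, cop_mul hgm]

theorem gw_sq (A : ℝ) (v u : O) : gw A (v * u ^ 2) = ex (b0 * N v / A) u := by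
  rw [gw, ex, N_mul, N_pow]
  push_cast
  congr 2
  ring

theorem gw_mul {A : ℝ} (d x : O) (hd : d ≠ 0) : gw A (d * x) = gw (A / N d) x := by
  have pd : (N d : ℝ) ≠ 0 := by exact_mod_cast (Vale.Agent.P006.N_pos hd).ne'
  rw [gw, gw, N_mul]
  push_cast
  congr 2
  by_cases hA : A = 0
  · simp [hA]
  · have hA' : (A : ℂ) ≠ 0 := by exact_mod_cast hA
    have pd' : (N d : ℂ) ≠ 0 := by exact_mod_cast pd
    field_simp

open Classical in
theorem summable_th_sq {c : ℝ} (hc : 0 < c) :
    Summable fun v : O => if Squarefree v then (th (c * N v) : ℂ) else 0 := by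
  have hb := b0_pos
  have h1 := (hasSum_pr (summable_gw (A := b0 / c) (by positivity) (ψ := fun _ => 1)
    (by simp))).summable.prod
  refine h1.congr fun v => ?_
  by_cases hv : Squarefree v
  · rw [if_pos hv, th_eq]
    refine tsum_congr fun u => ?_
    rw [pr]
    by_cases hu : u = 0
    · simp [hu]
    · rw [if_pos ⟨hv, hu⟩, if_neg hu, one_mul, gw_sq]
      congr 1
      field_simp
  · rw [if_neg hv]
    have : ∀ u : O, pr (fun x => 1 * gw (b0 / c) x) (v, u) = 0 := fun u => by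
      rw [pr, if_neg fun h => hv h.1]
    rw [tsum_congr this, tsum_zero]

namespace QSym

variable {χ : O → O → ℂ} (hχ : QSym χ)

include hχ

theorem norm_le {n : O} (hn : Od n) (x : O) : ‖χ n x‖ ≤ 1 := by
  have h1 := congrArg norm (hχ.sq n x hn)
  rw [norm_mul] at h1
  have h2 := norm_cop_le n x
  nlinarith [norm_nonneg (χ n x)]

theorem conj_eq {n : O} (hn : Od n) (x : O) : (starRingEnd ℂ) (χ n x) = χ n x := by
  have h1 := hχ.sq n x hn
  unfold cop at h1
  split_ifs at h1
  · rcases mul_self_eq_one_iff.1 h1 with h | h <;> simp [h]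
  · rw [mul_self_eq_zero.1 h1, map_zero]

theorem at_sq {n : O} (hn : Od n) (v u : O) : χ n (v * u ^ 2) = χ n v * cop n u := by
  rw [hχ.mul_right _ _ _ hn, pow_two, hχ.mul_right _ _ _ hn, hχ.sq _ _ hn]

theorem at_zero {n : O} (hn : Od n) (h1 : n ≠ 1) : χ n 0 = 0 := by
  have h := hχ.sq n 0 hn
  rw [cop, if_neg] at h
  · exact mul_self_eq_zero.1 h
  · intro h2
    exact h1 (hn.prim.eq_one_of_isUnit (isCoprime_zero_left.1 h2))

/-- **Poisson summation** for the quadratic symbol: root number one. -/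
theorem poisson {a b : O} (ha : Od a) (hb : Od b) (hab : IsCoprime a b) (h4 : (4 : O) ∣ a - b)
    {A : ℝ} (hA : 0 < A) :
    ∑' x : O, χ (a * b) x * gw A x = ((A / Real.sqrt (N (a * b)) : ℝ) : ℂ) *
      ∑' h : O, χ (a * b) h * gw (N (a * b) / A) h := by
  have hq := ha.mul hb hab
  have nab : NeZero (a * b) := ⟨hq.ne_zero⟩
  have key := PO.poisson_per (gau_continuous A) (gau_dec hA) (FT_gau_dec hA)
    (NeZero.ne (a * b)) (isResSys_reps (a * b)) (per_iff (hχ.per _ hq))
  simp only [gau_toC] at key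
  have e0 : ∑' x : O, χ (a * b) x * gw A x =
      ∑' x : O, χ (a * b) x * ((Real.exp (-(b0 * N x / A)) : ℝ) : ℂ) := rfl
  rw [e0, ← key.tsum_eq, ← tsum_mul_left]
  refine tsum_congr fun h => ?_
  rw [GS_eq, hχ.gauss a b h ha hb hab h4, FT_gau hA]
  have pq : (0 : ℝ) < N (a * b) := by exact_mod_cast Vale.Agent.P006.N_pos hq.ne_zero
  have qq : 0 < Real.sqrt (N (a * b)) := Real.sqrt_pos.2 pq
  have e1 : gau (1 / (3 * A)) (toC h / (toC PO.rt3 * toC (a * b))) = gw (N (a * b) / A) h := by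
    rw [gau, gw, norm_div, norm_mul, div_pow, mul_pow, ← N_eq_sq_norm, ← N_eq_sq_norm,
      ← N_eq_sq_norm, PO.N_rt3]
    congr 3
    push_cast
    field_simp
  have e2 : ((A / Real.sqrt (N (a * b)) : ℝ) : ℂ) =
      (2 / (Real.sqrt 3 * N (a * b)) : ℂ) * (((Real.sqrt (N (a * b)) : ℝ) : ℂ) *
        ((Real.sqrt 3 / 2 * A : ℝ) : ℂ)) := by
    have s3 : 0 < Real.sqrt 3 := by positivity
    have ea : Real.sqrt (N (a * b)) ^ 2 = N (a * b) := Real.sq_sqrt pq.le
    have : (A / Real.sqrt (N (a * b)) : ℝ) =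
      (2 / (Real.sqrt 3 * N (a * b)) : ℝ) * (Real.sqrt (N (a * b)) *
        (Real.sqrt 3 / 2 * A : ℝ)) := by
      set r := Real.sqrt (N (a * b))
      rw [← ea]
      field_simp
    exact_mod_cast this
  rw [e1, e2]
  ring

/-- Poisson summation with a coprimality condition -/
theorem poisson_cop {δ a b : O} (hδ : Od δ) (ha : Od a) (hb : Od b) (hab : IsCoprime a b)
    (h4 : (4 : O) ∣ a - b) {A : ℝ} (hA : 0 < A) :
    ∑' x : O, cop δ x * χ (a * b) x * gw A x =
      ∑ d ∈ D δ, mob d * ((A / N d / Real.sqrt (N (a * b)) : ℝ) : ℂ) *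
        ∑' y : O, if d ∣ y then χ (a * b) y * gw ((N d : ℝ) ^ 2 * N (a * b) / A) y else 0 := by
  have hq := ha.mul hb hab
  have h1 : ∀ x : O, cop δ x * χ (a * b) x * gw A x =
      ∑ d ∈ D δ, if d ∣ x then mob d * (χ (a * b) x * gw A x) else 0 := by
    intro x
    rw [cop_eq_sum hδ.prim hδ.sqf, mul_assoc, sum_mul]
    refine sum_congr rfl fun d _ => ?_
    split_ifs <;> simp
  rw [tsum_congr h1, Summable.tsum_finsetSum]
  · refine sum_congr rfl fun d hd => ?_
    rw [mem_D hδ.ne_zero] at hd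
    have hd0 := hd.1.ne_zero
    have pd : (0 : ℝ) < N d := by exact_mod_cast hd.1.N_pos
    rw [tsum_dvd_eq hd0, tsum_dvd_eq hd0]
    have e1 : ∀ x : O, mob d * (χ (a * b) (d * x) * gw A (d * x)) =
        (mob d * χ (a * b) d) * (χ (a * b) x * gw (A / N d) x) := by
      intro x
      rw [hχ.mul_right _ _ _ hq, gw_mul d x hd0]; ring
    have e2 : ∀ x : O, χ (a * b) (d * x) * gw ((N d : ℝ) ^ 2 * N (a * b) / A) (d * x) =
        χ (a * b) d * (χ (a * b) x * gw (N (a * b) / (A / N d)) x) := by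
      intro x
      rw [hχ.mul_right _ _ _ hq, gw_mul d x hd0]
      have : (N d : ℝ) ^ 2 * N (a * b) / A / N d = N (a * b) / (A / N d) := by field_simp
      rw [this]; ring
    rw [tsum_congr e1, tsum_congr e2, tsum_mul_left, tsum_mul_left,
      hχ.poisson ha hb hab h4 (by positivity)]
    ring
  · intro d _
    refine Summable.of_norm_bounded (summable_gw hA (hχ.norm_le hq)).norm fun x => ?_
    split_ifs
    · rw [norm_mul, norm_mob, one_mul]
    · rw [norm_zero]; exact norm_nonneg _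

open Classical in
/-- the sum over `u` on the side of the arguments -/
theorem tsum_primal {δ q : O} (hδ : Od δ) (hq : Od q) (hc : IsCoprime δ q) {A : ℝ} (hA : 0 < A)
    (v : O) :
    ∑' u : O, pr (fun x => cop δ x * χ q x * gw A x) (v, u) =
      if Squarefree v then cop δ v * χ q v * sv th (δ * q) (b0 * N v / A) else 0 := by
  have hb := b0_pos
  have hm := hδ.mul hq hc
  split_ifs with hv
  · have pv : (0 : ℝ) < N v := by exact_mod_cast Vale.Agent.P006.N_pos hv.ne_zero
    rw [← tsum_cop_ex (by positivity) hm.prim hm.sqf, ← tsum_mul_left]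
    refine tsum_congr fun u => ?_
    rw [pr]
    by_cases hu : u = 0
    · simp [hu]
    · rw [if_pos ⟨hv, hu⟩, if_neg hu]
      simp only
      rw [gw_sq, hχ.at_sq hq, cop_mul_right, pow_two, cop_mul_right, cop_sq, cop_mul_left]
      ring
  · have : ∀ u : O, pr (fun x => cop δ x * χ q x * gw A x) (v, u) = 0 := fun u => by
      rw [pr, if_neg fun h => hv h.1]
    simp [this]

/-- the sum over `u` on the dual side -/
theorem tsum_dual {d g q v : O} (hq : Od q) (hg : g ≠ 0) (sdg : Squarefree (d * g))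
    (hgq : IsCoprime g q) (hdv : d ∣ v) (hgv : IsCoprime g v) (hv : Squarefree v) {B : ℝ}
    (hB : 0 < B) :
    ∑' u : O, pr (fun y => if d * g ∣ y then χ q y * gw B y else 0) (v, u) =
      χ q v * sv th q ((N g : ℝ) ^ 2 * (b0 * N v / B)) := by
  have hb := b0_pos
  have pv : (0 : ℝ) < N v := by exact_mod_cast Vale.Agent.P006.N_pos hv.ne_zero
  rw [← tsum_dvd_cop_ex (by positivity) hq.prim hq.sqf hg hgq, ← tsum_mul_left]
  refine tsum_congr fun u => ?_
  rw [pr]
  by_cases hu : u = 0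
  · simp [hu]
  · rw [if_pos ⟨hv, hu⟩, if_neg hu]
    simp only
    have h1 : d * g ∣ v * u ^ 2 ↔ g ∣ u := by
      constructor
      · intro h
        have h2 : g ∣ v * u ^ 2 := (Dvd.intro_left d rfl).trans h
        have h3 : g ∣ u ^ 2 := hgv.dvd_of_dvd_mul_left h2
        exact (sdg.of_mul_right.dvd_pow_iff_dvd (by norm_num)).1 h3
      · intro h
        exact mul_dvd_mul hdv (h.trans (dvd_pow_self u (by norm_num)))
    by_cases h2 : g ∣ u
    · rw [if_pos (h1.2 h2), if_pos h2, gw_sq, hχ.at_sq hq]; ring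
    · rw [if_neg (fun h => h2 (h1.1 h)), if_neg h2, mul_zero]

end QSym

end Vale.Agent.P026Z.QLS
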