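import Vale.Agent.P006.H485.Decay

/-!
P026, block QLS: the functions `z ↦ |z|^(4k) exp (-|z|^4)` are Schwartz; Poisson summation for
them over `q O`.
-/

open MeasureTheory Filter Topology Function Set
open scoped FourierTransform Real SchwartzMap ComplexConjugate ContDiff Nat

namespace Vale.Agent.P026Z.QLS

open Vale.Agent.P006 Vale.Agent.P006.PO

/-- `x^k exp (-x)` -/
noncomputable def pk (k : ℕ) (x : ℝ) : ℝ := x ^ k * Real.exp (-x)

theorem pk_nonneg (k : ℕ) {x : ℝ} (hx : 0 ≤ x) : 0 ≤ pk k x := by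
  unfold pk; positivity

theorem pk_le (k : ℕ) {x : ℝ} (hx : 0 ≤ x) : pk k x ≤ k ! := by
  have h := Real.pow_div_factorial_le_exp x hx k
  have h0 : (0 : ℝ) < k ! := by exact_mod_cast Nat.factorial_pos k
  rw [div_le_iff₀ h0] at h
  unfold pk
  rw [Real.exp_neg, ← div_eq_mul_inv, div_le_iff₀ (Real.exp_pos x)]
  linarith

theorem one_add_pow_mul_exp_le (m : ℕ) {r : ℝ} (hr : 0 ≤ r) :
    (1 + r) ^ m * Real.exp (-((r ^ 2) ^ 2)) ≤ m ! * Real.exp 2 := by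
  have h := Real.pow_div_factorial_le_exp (1 + r) (by positivity) m
  have h0 : (0 : ℝ) < m ! := by exact_mod_cast Nat.factorial_pos m
  rw [div_le_iff₀ h0] at h
  have h1 : 1 + r + -((r ^ 2) ^ 2) ≤ 2 := by
    nlinarith [sq_nonneg (r ^ 2 - 1 / 2), sq_nonneg (r - 1 / 2)]
  calc (1 + r) ^ m * Real.exp (-((r ^ 2) ^ 2))
      ≤ (Real.exp (1 + r) * m !) * Real.exp (-((r ^ 2) ^ 2)) := by gcongr
    _ = m ! * Real.exp (1 + r + -((r ^ 2) ^ 2)) := by rw [Real.exp_add (1 + r)]; ring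
    _ ≤ _ := by gcongr

theorem temp_four : (fun z : ℂ => -((‖z‖ ^ 2) ^ 2)).HasTemperateGrowth :=
  ((Function.hasTemperateGrowth_norm_sq ℂ).pow 2).neg

theorem norm_iteratedFDeriv_exp (i : ℕ) (y : ℝ) :
    ‖iteratedFDeriv ℝ i Real.exp y‖ = Real.exp y := by
  rw [norm_iteratedFDeriv_eq_norm_iteratedDeriv, iteratedDeriv_eq_iterate, Real.iter_deriv_exp,
    Real.norm_of_nonneg (Real.exp_pos y).le]

/-- `exp (-|z|^4)` as a real Schwartz function on `ℂ` -/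
noncomputable def g4 : 𝓢(ℂ, ℝ) where
  toFun := Real.exp ∘ fun z : ℂ => -((‖z‖ ^ 2) ^ 2)
  smooth' := Real.contDiff_exp.comp temp_four.1
  decay' := by
    intro k n
    obtain ⟨m, C, hC0, hC⟩ := temp_four.norm_iteratedFDeriv_le_uniform n
    refine ⟨n ! * (1 + C) ^ n * ((k + m * n)! * Real.exp 2), fun z => ?_⟩
    have hD : ∀ i, 1 ≤ i → i ≤ n →
        ‖iteratedFDeriv ℝ i (fun z : ℂ => -((‖z‖ ^ 2) ^ 2)) z‖ ≤ ((1 + C) * (1 + ‖z‖) ^ m) ^ i := by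
      intro i h1 h2
      have h3 : 1 ≤ (1 + ‖z‖) ^ m := one_le_pow₀ (by linarith [norm_nonneg z])
      have h4 : 1 ≤ (1 + C) * (1 + ‖z‖) ^ m := by nlinarith
      calc _ ≤ C * (1 + ‖z‖) ^ m := hC i h2 z
        _ ≤ (1 + C) * (1 + ‖z‖) ^ m := by nlinarith
        _ = ((1 + C) * (1 + ‖z‖) ^ m) ^ 1 := (pow_one _).symm
        _ ≤ _ := pow_le_pow_right₀ h4 h1
    have h := norm_iteratedFDeriv_comp_le (N := ∞) (C := Real.exp (-((‖z‖ ^ 2) ^ 2)))
      Real.contDiff_exp temp_four.1 (n := n) (mod_cast le_top) z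
      (fun i _ => (norm_iteratedFDeriv_exp i _).le) hD
    have h5 := one_add_pow_mul_exp_le (k + m * n) (norm_nonneg z)
    have h6 : ‖z‖ ^ k ≤ (1 + ‖z‖) ^ k := by gcongr; linarith
    calc ‖z‖ ^ k * ‖iteratedFDeriv ℝ n (Real.exp ∘ fun z : ℂ => -((‖z‖ ^ 2) ^ 2)) z‖
        ≤ (1 + ‖z‖) ^ k * (n ! * Real.exp (-((‖z‖ ^ 2) ^ 2)) * ((1 + C) * (1 + ‖z‖) ^ m) ^ n) := by
          gcongr
      _ = n ! * (1 + C) ^ n * ((1 + ‖z‖) ^ (k + m * n) * Real.exp (-((‖z‖ ^ 2) ^ 2))) := by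
          rw [mul_pow, ← pow_mul, pow_add]; ring
      _ ≤ _ := by gcongr

theorem g4_apply (z : ℂ) : g4 z = Real.exp (-((‖z‖ ^ 2) ^ 2)) := rfl

theorem temp_pow (k : ℕ) : (fun z : ℂ => (((‖z‖ ^ 2) ^ 2) ^ k : ℝ)).HasTemperateGrowth :=
  ((Function.hasTemperateGrowth_norm_sq ℂ).pow 2).pow k

/-- `|z|^(4k) exp (-|z|^4)` as a complex Schwartz function on `ℂ` -/
noncomputable def fk (k : ℕ) : 𝓢(ℂ, ℂ) :=
  SchwartzMap.postcompCLM Complex.ofRealCLM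
    (SchwartzMap.smulLeftCLM ℝ (fun z : ℂ => (((‖z‖ ^ 2) ^ 2) ^ k : ℝ)) g4)

theorem fk_apply (k : ℕ) (z : ℂ) : fk k z = (pk k ((‖z‖ ^ 2) ^ 2) : ℝ) := by
  rw [fk, SchwartzMap.postcompCLM_apply, SchwartzMap.smulLeftCLM_apply_apply (temp_pow k),
    g4_apply, pk]
  rfl

/-- the constant `c_k` -/
noncomputable def ck (k : ℕ) : ℝ := 2 / Real.sqrt 3 * (π / 2 * Real.Gamma (k + 1 / 2))

theorem ck_succ (k : ℕ) : ck (k + 1) = (k + 1 / 2) * ck k := by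
  unfold ck
  have h : ((k + 1 : ℕ) : ℝ) + 1 / 2 = (k + 1 / 2) + 1 := by push_cast; ring
  rw [h, Real.Gamma_add_one (by positivity)]
  ring

theorem FT_fk_zero (k : ℕ) : FT (fk k) 0 = (π / 2 * Real.Gamma (k + 1 / 2) : ℝ) := by
  have h := Complex.integral_rpow_mul_exp_neg_mul_rpow (p := 4) (q := 4 * k) (b := 1)
    (by norm_num) (by have : (0 : ℝ) ≤ k := Nat.cast_nonneg k; linarith) one_pos
  have h1 : ∀ z : ℂ, eT (-(z * 0)) * fk k z =
      ((‖z‖ ^ (4 * k : ℝ) * Real.exp (-1 * ‖z‖ ^ (4 : ℝ)) : ℝ) : ℂ) := by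
    intro z
    have e1 : eT (-(z * 0)) = 1 := by simp [eT, e, TrC]
    rw [e1, one_mul, fk_apply, pk]
    congr 2
    · rw [show (4 * k : ℝ) = ((4 * k : ℕ) : ℝ) by push_cast; ring, Real.rpow_natCast]
      ring
    · rw [show (4 : ℝ) = ((4 : ℕ) : ℝ) by norm_num, Real.rpow_natCast]
      congr 1; ring
  rw [FT]
  simp only [h1]
  rw [integral_complex_ofReal, h, Real.one_rpow]
  congr 1
  rw [show (4 * (k : ℝ) + 2) / 4 = k + 1 / 2 by ring]
  ring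

/-- the full sum over `O`, zero included -/
noncomputable def Sa (k : ℕ) (s : ℝ) : ℝ := ∑' u : O, pk k (s * (N u : ℝ) ^ 2)

theorem fk_q (k : ℕ) {s : ℝ} (hs : 0 < s) (u : O) :
    fk k (0 + ((s ^ (1 / 4 : ℝ) : ℝ) : ℂ) * toC u) = (pk k (s * (N u : ℝ) ^ 2) : ℝ) := by
  rw [fk_apply, zero_add, norm_mul, mul_pow, ← N_eq_sq_norm, mul_pow, Complex.norm_real,
    Real.norm_of_nonneg (by positivity), ← pow_mul, ← Real.rpow_natCast, ← Real.rpow_mul hs.le]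
  norm_num

theorem summable_pk (k : ℕ) {s : ℝ} (hs : 0 < s) :
    Summable fun u : O => pk k (s * (N u : ℝ) ^ 2) := by
  have hq : ((s ^ (1 / 4 : ℝ) : ℝ) : ℂ) ≠ 0 := by
    exact_mod_cast (Real.rpow_pos_of_pos hs _).ne'
  have h := (schwartz_dec (fk k)).summable 0 hq
  simp only [fk_q k hs] at h
  exact Complex.summable_ofReal.1 h

/-- Poisson summation: the full sum is `c_k / √s` up to a bounded error -/
theorem Sa_sub_bound (k : ℕ) :
    ∃ C : ℝ, 0 ≤ C ∧ ∀ s : ℝ, 0 < s → |Sa k s - ck k / Real.sqrt s| ≤ C := by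
  obtain ⟨C, hC0, hC⟩ := FT_schwartz_decay (fk k) 4
  refine ⟨2 / Real.sqrt 3 * (C * (3 * cB)), by have := cB_nonneg; positivity, fun s hs => ?_⟩
  set q : ℝ := s ^ (1 / 4 : ℝ) with hqdef
  have hq0 : 0 < q := Real.rpow_pos_of_pos hs _
  have hq : (q : ℂ) ≠ 0 := by exact_mod_cast hq0.ne'
  have hq2 : q ^ 2 = Real.sqrt s := by
    rw [hqdef, ← Real.rpow_natCast, ← Real.rpow_mul hs.le, Real.sqrt_eq_rpow]
    norm_num
  have hss : 0 < Real.sqrt s := Real.sqrt_pos.2 hs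
  have h3 : 0 < Real.sqrt 3 := by positivity
  have hP := poisson_schwartz (fk k) 0 hq
  simp only [hqdef, fk_q k hs] at hP
  rw [← hqdef, ← Complex.ofReal_tsum] at hP
  change HasSum _ ((Sa k s : ℝ) : ℂ) at hP
  set κ : ℝ := 2 / (Real.sqrt 3 * Real.sqrt s) with hκ
  have hκ0 : 0 ≤ κ := by positivity
  have hκ' : (2 / (Real.sqrt 3 * ‖(q : ℂ)‖ ^ 2) : ℂ) = (κ : ℂ) := by
    rw [hκ, Complex.norm_real, Real.norm_of_nonneg hq0.le, ← hq2]; push_cast; rfl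
  have e0 : ∀ h : O, eT (0 * (toC h / (toC rt3 * q))) = 1 := by
    intro h; simp [eT, e, TrC]
  simp only [hκ', e0, one_mul] at hP
  have hP' := hP.summable.tsum_eq_add_tsum_ite 0
  rw [hP.tsum_eq] at hP'
  have z0 : (κ : ℂ) * FT (fk k) (toC 0 / (toC rt3 * q)) = ((ck k / Real.sqrt s : ℝ) : ℂ) := by
    rw [map_zero, zero_div, FT_fk_zero, ← Complex.ofReal_mul]
    congr 1
    rw [hκ, ck]; field_simp
  rw [z0] at hP'
  set T : ℝ := 1 / (3 * Real.sqrt s) with hT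
  have hT0 : 0 < T := by positivity
  obtain ⟨hs1, hs2⟩ := sum_decay hT0
  have hb : ∀ h : O, ‖(if h = 0 then 0 else (κ : ℂ) * FT (fk k) (toC h / (toC rt3 * q)))‖ ≤
      κ * C * (if h = 0 then 0 else ((1 + T * N h) ^ 2)⁻¹) := by
    intro h
    split_ifs with h0
    · simp
    · set y : ℂ := toC h / (toC rt3 * q) with hy
      have hy2 : ‖y‖ ^ 2 = T * N h := by
        rw [hy, norm_div, norm_mul, norm_toC_rt3, Complex.norm_real, Real.norm_of_nonneg hq0.le,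
          div_pow, mul_pow, hq2, Real.sq_sqrt (by norm_num), ← N_eq_sq_norm, hT]
        field_simp
      have h1 := hC y
      have h2 : (1 + T * N h) ^ 2 ≤ (1 + ‖y‖) ^ 4 := by
        rw [← hy2, show (1 + ‖y‖) ^ 4 = ((1 + ‖y‖) ^ 2) ^ 2 by ring]
        gcongr
        nlinarith [norm_nonneg y]
      have h4 : 0 < (1 + T * N h) ^ 2 := by positivity
      rw [norm_mul, Complex.norm_real, Real.norm_of_nonneg hκ0, mul_assoc]
      gcongr
      rw [← div_eq_mul_inv, le_div_iff₀ h4]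
      calc ‖FT (fk k) y‖ * (1 + T * N h) ^ 2 ≤ ‖FT (fk k) y‖ * (1 + ‖y‖) ^ 4 := by gcongr
        _ ≤ C := by rw [mul_comm]; exact h1
  have hb2 := tsum_of_norm_bounded (hs1.mul_left (κ * C)).hasSum hb
  rw [tsum_mul_left] at hb2
  have e1 : ((Sa k s - ck k / Real.sqrt s : ℝ) : ℂ) =
      ∑' h : O, (if h = 0 then 0 else (κ : ℂ) * FT (fk k) (toC h / (toC rt3 * q))) := by
    rw [Complex.ofReal_sub, hP']; ring
  rw [← Real.norm_eq_abs, ← Complex.norm_real, e1]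
  refine hb2.trans ?_
  calc κ * C * ∑' h : O, (if h = 0 then 0 else ((1 + T * N h) ^ 2)⁻¹ : ℝ)
      ≤ κ * C * (cB / T) := by gcongr
    _ = 2 / Real.sqrt 3 * (C * (3 * cB)) := by rw [hκ, hT]; field_simp

end Vale.Agent.P026Z.QLS
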